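import Vale.Agent.P275HE.Defs

/-!
# P275, block HE: the type of full flags
-/

open Matrix Polynomial

noncomputable section

namespace Vale.Agent.P275HE

open Vale.Agent.P275Z
open Vale.Agent.P275NA (Mn)

variable {n : ℕ}

/-- the first index -/
def o0 (hn : 2 ≤ n) : Fin n := ⟨0, by omega⟩

theorem lt_of_ne (hn : 2 ≤ n) {a : Fin n} (h : a ≠ o0 hn) : o0 hn < a :=
  Nat.pos_of_ne_zero fun e => h (Fin.ext e)

theorem hty (hn : 2 ≤ n) : HTy (tauY hn) (o0 hn) (0 : Fin 1) n := by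
  have n0 : (n : ℂ) ≠ 0 := Nat.cast_ne_zero.2 (by omega)
  have e0 : P275Z.mu n (o0 hn) = n * (1 - n) := by simp [P275Z.mu, o0]
  have e1 : ∀ a, a ≠ o0 hn → P275Z.mu n a = n := fun a ha => by
    rw [P275Z.mu, if_neg fun e : (a : ℕ) = 0 => ha (Fin.ext e), mul_one]
  refine ⟨Nat.cast_ne_zero.2 (by omega), fun X hX => mem_bor.2 fun a b h => hX a b ?_,
    ⟨mem_bor.2 fun a b h => ?_, (n : ℂ)⁻¹, fun a => ?_⟩,
    fun R hR a ha => mem_bor.1 hR.1 a _ (lt_of_ne hn ha), fun R hR => ?_, fun R hR => ?_⟩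
  · rintro rfl
    exact absurd h (Nat.not_lt_zero _)
  · have : ¬(o0 hn = a ∧ o0 hn = b) := fun e => h.ne (e.2.symm.trans e.1)
    simp [mu, pe, one_apply_ne h.ne', this]
  · by_cases ha : a = o0 hn
    · rw [ha, e0, inv_mul_cancel_left₀ n0]
      simp [mu, pe]
    · rw [e1 a ha, inv_mul_cancel₀ n0]
      simp [mu, pe, Ne.symm ha]
  · obtain ⟨-, z, hz⟩ := hR
    rw [show (tauY hn).η R (0 : Fin 1) = z from zY_eq hn hz, hz, e0]
    push_cast
    ring
  · obtain ⟨h, z, hz⟩ := hR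
    rw [show (tauY hn).η R (0 : Fin 1) = z from zY_eq hn hz, charpoly_of_isUpperTriangular R h,
      ← Finset.mul_prod_erase _ _ (Finset.mem_univ (o0 hn)),
      Finset.prod_congr rfl (g := fun _ => X - C (((n : ℝ) : ℂ) * z)) fun a ha => by
        rw [hz, e1 a (Finset.mem_erase.1 ha).1, mul_comm, Complex.ofReal_natCast]]
    simp

end Vale.Agent.P275HE
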