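import Vale.Agent.P275HE.Roots
import Mathlib.LinearAlgebra.Eigenspace.Zero
import Mathlib.LinearAlgebra.Matrix.SchurComplement
import Mathlib.LinearAlgebra.Charpoly.ToMatrix
import Mathlib.Topology.Instances.Matrix
import Mathlib.LinearAlgebra.Matrix.ToLinearEquiv
import Mathlib.LinearAlgebra.Matrix.Charpoly.Coeff

/-!
# P275, block HE: the spectral projector of a simple eigenvalue
-/

open scoped Topology
open Set Filter Matrix Polynomial

noncomputable section

namespace Vale.Agent.P275HE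

variable {n : ℕ} {B Y Z : Matrix (Fin n) (Fin n) ℂ} {t lam : ℂ}

theorem ev_char (B : Matrix (Fin n) (Fin n) ℂ) (s : ℂ) : B.charpoly.eval s = (s • 1 - B).det := by
  rw [eval_charpoly, Matrix.smul_one_eq_diagonal]
  rfl

theorem mon_char (B : Matrix (Fin n) (Fin n) ℂ) : Mon n B.charpoly :=
  ⟨B.charpoly_monic, by simp⟩

/-- the spectral projector -/
def sp (B : Matrix (Fin n) (Fin n) ℂ) (t : ℂ) : Matrix (Fin n) (Fin n) ℂ :=
  (B.charpoly.derivative.eval t)⁻¹ • adjugate (t • 1 - B)

theorem mul_sp (h : Smp B.charpoly t) : B * sp B t = t • sp B t := by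
  have := mul_adjugate (t • 1 - B)
  rw [← ev_char, h.1, zero_smul, sub_mul, sub_eq_zero, smul_mul_assoc, one_mul] at this
  rw [sp, mul_smul_comm, ← this, smul_comm]

theorem sp_mul (h : Smp B.charpoly t) : sp B t * B = t • sp B t := by
  have := adjugate_mul (t • 1 - B)
  rw [← ev_char, h.1, zero_smul, mul_sub, sub_eq_zero, mul_smul_comm, mul_one] at this
  rw [sp, smul_mul_assoc, ← this, smul_comm]

theorem Smp.fac {p : ℂ[X]} (h : Smp p t) :
    ∃ ν : ℂ[X], p = (X - C t) * ν ∧ p.derivative.eval t = ν.eval t := by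
  obtain ⟨ν, rfl⟩ := dvd_iff_isRoot.2 h.1
  exact ⟨ν, rfl, by simp⟩

theorem sp_mulVec (h : Smp B.charpoly t) {v : Fin n → ℂ} (hv : B *ᵥ v = t • v) :
    sp B t *ᵥ v = v := by
  obtain ⟨ν, h1, h2⟩ := h.fac
  have c1 : Continuous fun s : ℂ => adjugate (s • (1 : Matrix (Fin n) (Fin n) ℂ) - B) *ᵥ v :=
    (((continuous_id.smul continuous_const).sub continuous_const).matrix_adjugate).matrix_mulVec
      continuous_const
  have c2 : Continuous fun s : ℂ => ν.eval s • v := ν.continuous.smul continuous_const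
  have e : EqOn (fun s : ℂ => adjugate (s • (1 : Matrix (Fin n) (Fin n) ℂ) - B) *ᵥ v)
      (fun s : ℂ => ν.eval s • v) {t}ᶜ := fun s hs => by
    have a := congrArg (· *ᵥ v) (adjugate_mul (s • 1 - B))
    simp only [← mulVec_mulVec, sub_mulVec, smul_mulVec, one_mulVec, hv, ← sub_smul,
      mulVec_smul, ← ev_char, h1, eval_mul, eval_sub, eval_X, eval_C, mul_smul] at a
    exact smul_right_injective _ (sub_ne_zero.2 hs) a
  have := congrFun (Continuous.ext_on (dense_compl_singleton t) c1 c2 e) t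
  rw [sp, smul_mulVec, this, h2, smul_smul, inv_mul_cancel₀ (h2 ▸ h.2), one_smul]

theorem sp_left (h : Smp B.charpoly t) (hY : B * Y = t • Y) : sp B t * Y = Y := by
  ext i j
  exact congrFun (sp_mulVec h (v := fun k => Y k j)
    (funext fun k => congrFun (congrFun hY k) j)) i

theorem sp_transpose (B : Matrix (Fin n) (Fin n) ℂ) (t : ℂ) : sp Bᵀ t = (sp B t)ᵀ := by
  rw [sp, sp, charpoly_transpose, transpose_smul, adjugate_transpose, transpose_sub,
    transpose_smul, transpose_one]

theorem sp_right (h : Smp B.charpoly t) (hY : Y * B = t • Y) : Y * sp B t = Y := by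
  have := sp_left (B := Bᵀ) (Y := Yᵀ) (by rwa [charpoly_transpose])
    (by rw [← transpose_mul, hY, transpose_smul])
  rw [sp_transpose, ← transpose_mul] at this
  exact transpose_injective this

theorem sp_sp (h : Smp B.charpoly t) : sp B t * sp B t = sp B t := sp_left h (mul_sp h)

theorem sp_rank (h : Smp B.charpoly t) :
    ∃ v ω : Fin n → ℂ, sp B t = vecMulVec v ω ∧ ω ⬝ᵥ v = 1 ∧ B *ᵥ v = t • v := by
  obtain ⟨v, hv, h1⟩ := exists_mulVec_eq_zero_iff.2 ((ev_char B t).symm.trans h.1)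
  rw [sub_mulVec, smul_mulVec, one_mulVec, sub_eq_zero] at h1
  have h2 : Module.finrank ℂ (Module.End.eigenspace (Matrix.toLin' B) t) ≤ 1 := by
    refine (LinearMap.finrank_eigenspace_le _ _).trans (not_lt.1 fun a => h.2 ?_)
    rw [charpoly_toLin'] at a
    exact ((one_lt_rootMultiplicity_iff_isRoot B.charpoly_monic.ne_zero).1 a).2
  have h3 : ∀ w : Fin n → ℂ, B *ᵥ w = t • w → ∃ c : ℂ, c • v = w := fun w hw => by
    obtain ⟨x, hx⟩ := finrank_le_one_iff.1 h2
    obtain ⟨a, ha⟩ := hx ⟨v, Module.End.mem_eigenspace_iff.2 h1.symm⟩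
    obtain ⟨b, hb⟩ := hx ⟨w, Module.End.mem_eigenspace_iff.2 hw⟩
    have ha' : a • x.1 = v := congrArg Subtype.val ha
    have hb' : b • x.1 = w := congrArg Subtype.val hb
    have a0 : a ≠ 0 := fun e => hv (by rw [← ha', e, zero_smul])
    exact ⟨b / a, by rw [← ha', smul_smul, div_mul_cancel₀ _ a0, hb']⟩
  choose ω hω using fun j => h3 (fun k => sp B t k j)
    (funext fun k => congrFun (congrFun (mul_sp h) k) j)
  have e : sp B t = vecMulVec v ω := by
    ext i j
    rw [← congrFun (hω j) i, vecMulVec_apply, Pi.smul_apply, smul_eq_mul, mul_comm]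
  refine ⟨v, ω, e, ?_, h1.symm⟩
  have := sp_mulVec h h1.symm
  rw [e, vecMulVec_mulVec, op_smul_eq_smul] at this
  exact smul_left_injective ℂ hv (this.trans (one_smul _ _).symm)

theorem det_one_add_vec (u v : Fin n → ℂ) : (1 + vecMulVec u v).det = 1 + v ⬝ᵥ u := by
  rw [vecMulVec_eq Unit, det_one_add_replicateCol_mul_replicateRow]

theorem tr_sp (h : Smp B.charpoly t) : (sp B t).trace = 1 := by
  obtain ⟨v, ω, e, a, -⟩ := sp_rank h
  rw [e, trace_vecMulVec, dotProduct_comm, a]

theorem det_sp (h : Smp B.charpoly t) (c : ℂ) (h1 : Z * sp B t = Z) (h2 : sp B t * Z = 0) :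
    (c • sp B t + (1 - sp B t) - Z).det = c := by
  obtain ⟨v, ω, e, a, -⟩ := sp_rank h
  have b : ω ᵥ* Z = 0 := by
    have := congrArg (ω ᵥ* ·) h2
    simpa [e, ← vecMul_vecMul, vecMul_vecMulVec, a] using this
  have d : c • sp B t + (1 - sp B t) - Z = 1 + vecMulVec ((c - 1) • v - Z *ᵥ v) ω := by
    rw [sub_vecMulVec, smul_vecMulVec, ← mul_vecMulVec, ← e, h1, sub_smul, one_smul]
    abel
  rw [d, det_one_add_vec, dotProduct_sub, dotProduct_smul, a, dotProduct_mulVec, b]
  simp

/-- an eigenvector which is killed by a left eigenvector vanishes -/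
theorem eig_zero (h : Smp B.charpoly t) (h1 : Y * B = t • Y) (h2 : Y ≠ 0) {x : Fin n → ℂ}
    (hx : B *ᵥ x = t • x) (h3 : Y *ᵥ x = 0) : x = 0 := by
  obtain ⟨v, ω, e, -, -⟩ := sp_rank h
  have a := sp_mulVec h hx
  have b := sp_right h h1
  rw [e, vecMulVec_mulVec, op_smul_eq_smul] at a
  rw [e, mul_vecMulVec] at b
  rw [← a, mulVec_smul, smul_eq_zero] at h3
  rcases h3 with h3 | h3
  · rw [← a, h3, zero_smul]
  · exact absurd (by rw [← b, h3, zero_vecMulVec]) h2

theorem sp_ne (h : Smp B.charpoly t) : sp B t ≠ 0 := fun e => by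
  simpa [e] using tr_sp h

theorem sp_unique (h : Smp B.charpoly t) (h1 : B * Y = t • Y) (h2 : Y * B = t • Y)
    (h3 : Y.trace = 1) : sp B t = Y := by
  obtain ⟨v, ω, e, a, -⟩ := sp_rank h
  have b : sp B t * Y * sp B t = Y := by rw [sp_left h h1, sp_right h h2]
  rw [e, vecMulVec_mul, vecMulVec_mul_vecMulVec] at b
  have c : (ω ᵥ* Y) ⬝ᵥ v = 1 := by
    rw [← h3, ← sp_left h h1, ← sp_left h h1, e]
    simp [vecMulVec_mul, trace_vecMulVec, dotProduct_comm v, vecMul_vecMulVec, a]
  rw [e, ← b, c, one_smul]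

/-- non resonance -/
def NR (B : Matrix (Fin n) (Fin n) ℂ) (t lam : ℂ) : Prop :=
  ∃ ν : ℂ[X], B.charpoly = (X - C t) * ν ∧ ∀ k : ℕ, ν.eval (t - k * lam) ≠ 0

theorem NR.smp (h : NR B t lam) : Smp B.charpoly t := by
  obtain ⟨ν, h1, h2⟩ := h
  rw [h1]
  exact ⟨by simp, by simpa using h2 0⟩

theorem Smp.nr (h : Smp B.charpoly t) : NR B t 0 := by
  obtain ⟨ν, h1, h2⟩ := h.fac
  exact ⟨ν, h1, fun k => by simpa [← h2] using h.2⟩

theorem char_step (hs : Smp B.charpoly t) {ν : ℂ[X]} (e : B.charpoly = (X - C t) * ν)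
    (h1 : Z * sp B t = Z) (h2 : sp B t * Z = 0) (lam : ℂ) :
    (B - lam • sp B t + Z).charpoly = (X - C (t - lam)) * ν := by
  refine mul_left_cancel₀ (X_sub_C_ne_zero t) (Polynomial.funext fun s => ?_)
  set P := sp B t
  have p1 : P * P = P := sp_sp hs
  have p2 : B * P = t • P := mul_sp hs
  have p3 : P * B = t • P := sp_mul hs
  have k1 : ∀ (c : ℂ) (W : Matrix (Fin n) (Fin n) ℂ), W * P = W →
      (c • P + (1 - P) - W) * (s • 1 - B + (1 - (s - t)) • P) =
        s • 1 - B + (c - (s - t)) • P - W + (W - W * (s • 1 - B + (1 - (s - t)) • P)) := by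
    intro c W hW
    simp only [sub_mul, add_mul, mul_add, mul_sub, smul_mul_assoc, mul_smul_comm, one_mul,
      mul_one, p1, p3, smul_sub, sub_smul, one_smul, smul_add, hW]
    module
  have k2 : ∀ W : Matrix (Fin n) (Fin n) ℂ, W * P = W →
      W - W * (s • 1 - B + (1 - (s - t)) • P) = 0 := by
    intro W hW
    have : W * B = t • W := by rw [← hW, mul_assoc, p3, mul_smul_comm]
    simp only [mul_add, mul_sub, mul_smul_comm, mul_one, hW, this]
    module
  have d1 := congrArg det (k1 (s - t) 0 (zero_mul _))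
  have d2 := congrArg det (k1 (s - (t - lam)) Z h1)
  rw [k2 _ (zero_mul _), det_mul, det_sp hs _ (zero_mul _) (mul_zero _), sub_self, zero_smul,
    add_zero, sub_zero, add_zero, ← ev_char, e] at d1
  rw [k2 _ h1, det_mul, det_sp hs _ h1 h2, add_zero] at d2
  have d3 : s • 1 - (B - lam • P + Z) = s • 1 - B + (s - (t - lam) - (s - t)) • P - Z := by
    module
  rw [eval_mul, ev_char, d3, ← d2, eval_mul, eval_mul]
  simp only [eval_mul, eval_sub, eval_X, eval_C] at d1 ⊢
  linear_combination (s - (t - lam)) * d1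

theorem NR.step (h : NR B t lam) (h1 : Z * sp B t = Z) (h2 : sp B t * Z = 0) :
    NR (B - lam • sp B t + Z) (t - lam) lam := by
  have hs := h.smp
  obtain ⟨ν, e, h3⟩ := h
  refine ⟨ν, char_step hs e h1 h2 lam, fun k => ?_⟩
  have := h3 (k + 1)
  rwa [show t - ((k + 1 : ℕ) : ℂ) * lam = t - lam - k * lam by push_cast; ring] at this

theorem NR.smp_sub (h : NR B t lam) (k : ℕ) :
    Smp (B - (k * lam) • sp B t).charpoly (t - k * lam) := by
  have hs := h.smp
  obtain ⟨ν, e, h3⟩ := h
  have := char_step (Z := 0) hs e (zero_mul _) (mul_zero _) (k * lam)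
  rw [add_zero] at this
  rw [this]
  exact ⟨by simp, by simpa using h3 k⟩

theorem NR.congr (h : NR B t lam) (e : Y.charpoly = B.charpoly) : NR Y t lam := by
  rwa [NR, e]

theorem cont_coeff (k : ℕ) : Continuous fun B : Matrix (Fin n) (Fin n) ℂ => B.charpoly.coeff k := by
  have : (fun B : Matrix (Fin n) (Fin n) ℂ => B.charpoly.coeff k) = fun B =>
      MvPolynomial.eval (fun p : Fin n × Fin n => B p.1 p.2)
        ((charpoly (Matrix.of fun a b => MvPolynomial.X (a, b))).coeff k) := by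
    funext B
    rw [← coeff_map, ← charpoly_map]
    congr 2
    ext a b
    simp
  rw [this]
  exact (MvPolynomial.continuous_eval _).comp
    (continuous_pi fun p => continuous_id.matrix_elem p.1 p.2)

theorem cont_der : Continuous fun p : Matrix (Fin n) (Fin n) ℂ × ℂ =>
    p.1.charpoly.derivative.eval p.2 := by
  simp only [(mon_char _).der_eq]
  exact continuous_finsetSum _ fun k _ =>
    (((cont_coeff _).comp continuous_fst).mul continuous_const).mul (continuous_snd.pow k)

theorem tendsto_sp {ι : Type} {f : Filter ι} {b : ι → Matrix (Fin n) (Fin n) ℂ} {s : ι → ℂ}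
    (h : Smp B.charpoly t) (h1 : Tendsto b f (𝓝 B)) (h2 : Tendsto s f (𝓝 t)) :
    Tendsto (fun i => sp (b i) (s i)) f (𝓝 (sp B t)) :=
  (((cont_der.tendsto (B, t)).comp (h1.prodMk_nhds h2)).inv₀ h.2).smul
    ((continuous_id.matrix_adjugate.tendsto _).comp ((h2.smul_const _).sub h1))

theorem char_conj {g : Matrix (Fin n) (Fin n) ℂ} (hg : g.det ≠ 0) (h : Y * g = g * B) :
    Y.charpoly = B.charpoly := by
  have u : IsUnit g.det := hg.isUnit
  rw [← mul_nonsing_inv_cancel_right g Y u, h, charpoly_mul_comm, ← mul_assoc,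
    nonsing_inv_mul _ u, one_mul]

theorem sp_conj {g : Matrix (Fin n) (Fin n) ℂ} (hs : Smp B.charpoly t)
    (hs' : Smp Y.charpoly t) (h : Y * g = g * B) : sp Y t * g = g * sp B t := by
  have a : sp Y t * (g * sp B t) = g * sp B t :=
    sp_left hs' (by rw [← mul_assoc, h, mul_assoc, mul_sp hs, mul_smul_comm])
  have b : sp Y t * g * sp B t = sp Y t * g :=
    sp_right hs (by rw [mul_assoc, ← h, ← mul_assoc, sp_mul hs', smul_mul_assoc])
  rw [← b, mul_assoc, a]

theorem char_shift (B : Matrix (Fin n) (Fin n) ℂ) (c s : ℂ) :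
    (B + c • 1).charpoly.eval (s + c) = B.charpoly.eval s := by
  rw [ev_char, ev_char]
  congr 1
  module

theorem Smp.aff {p q : ℂ[X]} {a c e : ℂ} (ha : a ≠ 0) (he : e ≠ 0)
    (h : ∀ s, q.eval (a * s + c) = e * p.eval s) : Smp q (a * t + c) ↔ Smp p t := by
  have h1 : HasDerivAt (fun s => q.eval (a * s + c)) (q.derivative.eval (a * t + c) * a) t := by
    have := (q.hasDerivAt (a * t + c)).comp t (((hasDerivAt_id t).const_mul a).add_const c)
    rw [mul_one] at this
    exact this
  have h2 := (p.hasDerivAt t).const_mul e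
  simp only [← h] at h2
  have h3 := h1.unique h2
  refine and_congr (by rw [h, mul_eq_zero, or_iff_right he]) ?_
  rw [← mul_ne_zero_iff_right ha, h3, mul_ne_zero_iff_left he]

theorem smp_shift (c : ℂ) : Smp (B + c • 1).charpoly (t + c) ↔ Smp B.charpoly t := by
  simpa using Smp.aff (t := t) (c := c) (q := (B + c • 1).charpoly) (p := B.charpoly) one_ne_zero
    one_ne_zero fun s => by rw [one_mul, one_mul, char_shift]

theorem smp_smul {a : ℂ} (ha : a ≠ 0) : Smp (a • B).charpoly (a * t) ↔ Smp B.charpoly t := by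
  simpa using Smp.aff (t := t) (c := 0) (q := (a • B).charpoly) (p := B.charpoly) ha
    (pow_ne_zero n ha) fun s => by
      rw [add_zero, ev_char, ev_char, mul_smul, ← smul_sub, det_smul, Fintype.card_fin]

end Vale.Agent.P275HE
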