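import Vale.Agent.P275HE.Fin
import Vale.Agent.P275OF.Off
import Vale.Agent.P275B.Coc

/-!
# P275, block HE: the elementary transformation does not change the monodromy
-/

open scoped Topology Matrix.Norms.Operator
open Set Filter Metric Matrix

noncomputable section

namespace Vale.Agent.P275HE

open Vale.Agent.P275GC Vale.Agent.P275MO Vale.Agent.P275MB Vale.Agent.P275Z
open Vale.Agent.P275B (pt_iff exp_mem det_exp)
open Vale.Agent.P275NA (Fm Cy Mn)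

variable {C : Type} [TopologicalSpace C] {n g : ℕ} {A : At C} {l : Cy A ℂ} {τ : Ty n}
  {o : Fin n} {j : Fin τ.m} {κ : ℝ} {d : ℤ} {R : Mn n} {m : Mod A l τ}

theorem HTy.gen (h : HTy τ o j κ) (hq : R ∈ τ.q) (hi : (τ.η R j).im ≠ 0) (d : ℤ) : Gen d R := by
  have r : ∀ a ∈ R.charpoly.roots, a = (1 - n) * (κ * τ.η R j) ∨ a = κ * τ.η R j := fun a ha => by
    rw [P275HS.roots_R h hq, Multiset.mem_cons, h.eta R hq] at ha
    exact ha.imp id Multiset.eq_of_mem_replicate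
  have b0 : ((κ : ℂ) * τ.η R j).im ≠ 0 := by simp [h.ne, hi]
  have n0 : (n : ℝ) ≠ 0 := Nat.cast_ne_zero.2 o.pos.ne'
  refine ⟨fun a ha b hb k e => ?_, fun s h1 h2 h3 k e => h3 ?_⟩
  · have e' := congrArg Complex.im e
    generalize (κ : ℂ) * τ.η R j = β at r b0
    rcases r a ha with rfl | rfl <;> rcases r b hb with rfl | c
    · exact_mod_cast e.symm.trans (sub_self _)
    · simp [c, sub_mul, n0, b0] at e'
    · simp [sub_mul, n0, b0] at e'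
    · exact_mod_cast e.symm.trans (sub_eq_zero.2 c.symm)
  · obtain ⟨a, c⟩ := P275KR.sum_two s fun μ hμ => r μ (Multiset.mem_of_le h1 hμ)
    have e' := congrArg Complex.im e
    have e2 : ((Multiset.card s : ℂ) * d / n).im = 0 := by
      rw [show ((Multiset.card s : ℂ) * d / n) = ((Multiset.card s * d / n : ℝ) : ℂ) by
        push_cast; rfl, Complex.ofReal_im]
    have e3 : ((Multiset.card s : ℂ) - a * n) = ((Multiset.card s - a * n : ℝ) : ℂ) := by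
      push_cast; rfl
    rw [Complex.sub_im, e2, sub_zero, c, e3, Complex.im_ofReal_mul, Complex.intCast_im] at e'
    rw [e3, (mul_eq_zero.1 e').resolve_right b0, Complex.ofReal_zero, zero_mul] at c
    refine Multiset.eq_of_le_of_card_le h1 ?_
    rw [P275HS.gen_R h hq (fun z => hi (by rw [z, Complex.zero_im])) s h1 h2 c]
    exact (Polynomial.card_roots' _).trans (mon_char R).2.le

theorem HTy.dr (h : HTy τ o j κ) (a : m ∈ Om A l τ j) (h1 : m.lam = 1) {V : Set C} (hx : m.x ∈ V)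
    (d : ℤ) : m ∈ DR A l d τ V := ⟨h1, hx, h.gen m.rep.2.2 a.2 d⟩

/-- **the transformation keeps the tuple and shifts the residue** -/
theorem bet_phi [T2Space C] (D : RHD A l g n d) (h : HTy τ o j κ) (ph : PHI A l τ o j κ)
    (hτ : ∀ R ∈ τ.q, R ∈ τ.H) (i : Fin D.N) (a : m ∈ Om A l τ j) (b : m ∈ DR A l d τ (D.V i))
    (b' : phi o m ∈ DR A l d τ (D.V i)) : ∃ p p' : BFr g d τ.q,
      (D.Ψ τ hτ i ⟨m, b⟩).2 = p.pt τ ∧ (D.Ψ τ hτ i ⟨phi o m, b'⟩).2 = p'.pt τ ∧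
      (D.Ψ τ hτ i ⟨phi o m, b'⟩).1 = (D.Ψ τ hτ i ⟨m, b⟩).1 ∧ p'.1.2 = p.1.2 ∧
      p.1.1 * pe o = pe o * p.1.1 ∧ p'.1.1 = p.1.1 + mu o := by
  obtain ⟨z, z', rfl, e, r, h1, h2, u, c, c', k⟩ := (ph.rel m a _).2 rfl
  generalize phi o z.pt = m' at e b'
  subst e
  have hl : z.1.lam = 1 := b.1
  obtain ⟨s, t, s0, t0, f⟩ := P275OF.off_ok A l h r h1 h2 z.1 z'.1 u c c' hl z.2.2 (om_pt.1 a).2
    (k.congr fun _ _ => h.oo (Mod.pt_rep _).symm)
  obtain ⟨⟨ρ, d1⟩, d2⟩ := D.spec τ hτ i z b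
  obtain ⟨⟨ρ', e1⟩, e2⟩ := D.spec τ hτ i z' b'
  obtain ⟨p, p1, p2, p3⟩ := d2 ρ d1
  obtain ⟨q, q1, q2, q3⟩ := e2 ρ' e1
  obtain ⟨v, v', w⟩ := D.off i _ _ _ _ _ d1 e1 f
  have eR : z'.1.R = z.1.R + mu o := by rw [k.R, hl, one_smul]
  have c1 : Commute z'.1.R (pe o) := k.R ▸ spl_add k.spl _
  have c2 : Commute z'.1.R z.1.R := eR ▸ (Commute.refl _).add_left ((Commute.one_left _).sub_left
    ((show Commute (pe o) z.1.R from k.spl.symm).smul_left _))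
  set K := NormedSpace.exp (v • z'.1.R) * (s • pe o + t • (1 - pe o)) *
    NormedSpace.exp (v' • z.1.R) with hK
  have c3 : Commute z'.1.R K := ((((Commute.refl _).smul_right v).exp_right).mul_right
    ((c1.smul_right s).add_right (((Commute.one_right _).sub_right c1).smul_right t))).mul_right
    (c2.smul_right v').exp_right
  have dK : K.det ≠ 0 := by
    have : (s • pe o + t • (1 - pe o)) * (s⁻¹ • pe o + t⁻¹ • (1 - pe o)) = 1 := by
      simp only [mul_add, add_mul, smul_mul_smul_comm, pe_pe, pe_co, co_pe, co_co, smul_zero,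
        mul_inv_cancel₀ s0, mul_inv_cancel₀ t0, one_smul, add_zero, zero_add, add_sub_cancel]
    rw [hK, Matrix.det_mul, Matrix.det_mul]
    exact mul_ne_zero (mul_ne_zero (det_exp _) (isUnit_det_of_right_inverse this).ne_zero)
      (det_exp _)
  have cj : ∀ X : Mn n, Commute X K → X = K⁻¹ * X * K := fun X hX => by
    rw [mul_assoc, hX.eq, nonsing_inv_mul_cancel_left _ _ dK.isUnit]
  have q4 := q.2
  rw [q1] at q4
  refine ⟨p, ⟨(z'.1.R, ρ), q4.1, q4.2.1, ?_⟩, p3, q3.trans (pt_iff.2 ⟨K, ?_, dK, ?_, ?_⟩),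
    Subtype.ext (q2.trans (k.x.trans p2.symm)), by rw [p1], by rw [p1]; exact k.spl,
    by rw [p1]; exact eR⟩
  · rw [P275RL.cj_wv w dK, q4.2.2]
    exact (cj _ (((c3.smul_left _).exp_left).smul_left _)).symm
  · exact mul_mem (mul_mem (exp_mem (τ.H.smul_mem (hτ _ z'.2.2) _)) (add_mem
      (τ.H.smul_mem h.pe_mem _) (τ.H.smul_mem (sub_mem (one_mem _) h.pe_mem) _)))
      (exp_mem (τ.H.smul_mem (hτ _ z.2.2) _))
  · rw [q1]; exact cj _ c3
  · rw [q1]; exact w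

/-! ### iteration -/

theorem PHI.iter_om (ph : PHI A l τ o j κ) (a : m ∈ Om A l τ j) (k : ℕ) :
    (phi o)^[k] m ∈ Om A l τ j := ph.maps.iterate k a

theorem PHI.iter_lam (ph : PHI A l τ o j κ) (m : Mod A l τ) (k : ℕ) :
    ((phi o)^[k] m).lam = m.lam := by
  induction k with
  | zero => rfl
  | succ k i => rw [Function.iterate_succ_apply', ph.lam, i]

theorem PHI.iter_x (ph : PHI A l τ o j κ) (m : Mod A l τ) (k : ℕ) : ((phi o)^[k] m).x = m.x := by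
  induction k with
  | zero => rfl
  | succ k i => rw [Function.iterate_succ_apply', ph.x, i]

theorem PHI.iter_η (ph : PHI A l τ o j κ) (a : m ∈ Om A l τ j) (k : ℕ) :
    ((phi o)^[k] m).η = m.η + (k * m.lam) • τ.η (mu o) := by
  induction k with
  | zero => simp
  | succ k i =>
    rw [Function.iterate_succ_apply', ph.η _ (ph.iter_om a k), i, ph.iter_lam, add_assoc,
      ← add_smul, Nat.cast_succ, add_one_mul]

theorem iter_dr (h : HTy τ o j κ) (ph : PHI A l τ o j κ) (a : m ∈ Om A l τ j) {V : Set C}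
    (b : m ∈ DR A l d τ V) (k : ℕ) : (phi o)^[k] m ∈ DR A l d τ V :=
  h.dr (ph.iter_om a k) ((ph.iter_lam m k).trans b.1) ((ph.iter_x m k).symm ▸ b.2.1) d

theorem bet_η {p q : BFr g d τ.q} (e : p.pt τ = q.pt τ) : τ.η q.1.1 = τ.η p.1.1 := by
  obtain ⟨f, a, b, c, -⟩ := pt_iff.1 e
  have := (τ.conj _ (inv_mem_alg a b) (by simpa using b) _ p.2.1).2
  rwa [nonsing_inv_nonsing_inv _ b.isUnit, ← c] at this

theorem psi_η (D : RHD A l g n d) (hτ : ∀ R ∈ τ.q, R ∈ τ.H) (i : Fin D.N)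
    (b : m ∈ DR A l d τ (D.V i)) {p : BFr g d τ.q} (e : (D.Ψ τ hτ i ⟨m, b⟩).2 = p.pt τ) :
    τ.η p.1.1 = m.η := by
  obtain ⟨z, rfl⟩ := pt_surj m
  obtain ⟨⟨ρ, d1⟩, d2⟩ := D.spec τ hτ i z b
  obtain ⟨q, q1, -, q3⟩ := d2 ρ d1
  rw [bet_η (q3.symm.trans e), q1, η_pt]

theorem mon_conj {f : Mn n} (h : f.det ≠ 0) (d : ℤ) (R : Mn n) :
    mon d (f⁻¹ * R * f) = f⁻¹ * mon d R * f := by
  rw [mon, mon, mul_smul_comm, smul_mul_assoc,
    ← Matrix.exp_conj' _ _ ((isUnit_iff_isUnit_det _).2 h.isUnit), mul_smul_comm, smul_mul_assoc]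

/-- one step, for any split frame -/
theorem bet_phi' [T2Space C] (D : RHD A l g n d) (h : HTy τ o j κ) (ph : PHI A l τ o j κ)
    (hτ : ∀ R ∈ τ.q, R ∈ τ.H) (i : Fin D.N) (a : m ∈ Om A l τ j) (b : m ∈ DR A l d τ (D.V i))
    (b' : phi o m ∈ DR A l d τ (D.V i)) {p : BFr g d τ.q} (e : (D.Ψ τ hτ i ⟨m, b⟩).2 = p.pt τ)
    (s : p.1.1 * pe o = pe o * p.1.1) : ∃ p' : BFr g d τ.q,
      (D.Ψ τ hτ i ⟨phi o m, b'⟩).2 = p'.pt τ ∧ p'.1 = (p.1.1 + mu o, p.1.2) := by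
  obtain ⟨q, q', c1, c2, -, c4, c5, c6⟩ := bet_phi D h ph hτ i a b b'
  have e1 := psi_η D hτ i b e
  have e2 := psi_η D hτ i b c1
  obtain ⟨f, f1, f2, f3, f4⟩ := pt_iff.1 (e.symm.trans c1)
  have z0 : (0 : ℂ).im = 0 := rfl
  have cm : f * pe o = pe o * f := comm_pe (R := q.1.1) (R' := p.1.1)
    (by rw [f3, mul_assoc, mul_nonsing_inv_cancel_left _ _ f2.isUnit]) c5 s
    (h.nr q.2.1 (by rw [e2]; exact a.2) z0).smp (h.nr p.2.1 (by rw [e1]; exact a.2) z0).smp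
    (by rw [h.eta _ p.2.1, h.eta _ q.2.1, e1, e2])
  have e3 : q'.1.1 = f⁻¹ * (p.1.1 + mu o) * f := by
    rw [c6, f3, mul_add, add_mul, mul_assoc _ (mu o), show mu o * f = f * mu o by
      simp only [mu, mul_sub, sub_mul, mul_smul_comm, smul_mul_assoc, cm, mul_one, one_mul],
      nonsing_inv_mul_cancel_left _ _ f2.isUnit]
  have e4 : p.1.1 + mu o ∈ τ.q := add_mem p.2.1 h.mem
  have e5 : τ.η q'.1.1 = τ.η (p.1.1 + mu o) := by rw [c6, map_add, map_add, e1, e2]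
  have e7 : (τ.η (p.1.1 + mu o) j).im ≠ 0 := by
    rw [← e5, psi_η D hτ i b' c2]; exact (ph.maps a).2
  have e8 : wv p.1.2 (P275RH.cwd g) = mon d (p.1.1 + mu o) := by
    have e6 := q'.2.2.2
    rw [c4, P275RL.cj_wv f4 f2, e3, mon_conj f2] at e6
    have := congrArg (f * ·) (cancel_det f2 e6)
    simpa only [mul_nonsing_inv_cancel_left _ _ f2.isUnit] using this
  obtain ⟨p', e9⟩ : ∃ p' : BFr g d τ.q, p'.1 = (p.1.1 + mu o, p.1.2) :=
    ⟨⟨(p.1.1 + mu o, p.1.2), e4, h.gen e4 e7 d, e8⟩, rfl⟩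
  have e0 : p'.pt τ = q'.pt τ := pt_iff.2 ⟨f, f1, f2, by rw [e9, e3], by rw [e9, c4]; exact f4⟩
  exact ⟨p', c2.trans e0.symm, e9⟩

/-- **the iterates keep the tuple and shift the residue** -/
theorem bet_iter [T2Space C] (D : RHD A l g n d) (h : HTy τ o j κ) (ph : PHI A l τ o j κ)
    (hτ : ∀ R ∈ τ.q, R ∈ τ.H) (i : Fin D.N) (k : ℕ) (a : m ∈ Om A l τ j)
    (b : m ∈ DR A l d τ (D.V i)) (b' : (phi o)^[k] m ∈ DR A l d τ (D.V i)) :
    ∃ p p' : BFr g d τ.q, (D.Ψ τ hτ i ⟨m, b⟩).2 = p.pt τ ∧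
      (D.Ψ τ hτ i ⟨(phi o)^[k] m, b'⟩).2 = p'.pt τ ∧
      (D.Ψ τ hτ i ⟨(phi o)^[k] m, b'⟩).1 = (D.Ψ τ hτ i ⟨m, b⟩).1 ∧ p'.1.2 = p.1.2 ∧
      p.1.1 * pe o = pe o * p.1.1 ∧ p'.1.1 = p.1.1 + (k : ℂ) • mu o := by
  induction k with
  | zero =>
    obtain ⟨p, -, c1, -, -, -, c5, -⟩ := bet_phi D h ph hτ i a b (iter_dr h ph a b 1)
    exact ⟨p, p, c1, c1, rfl, rfl, c5, by simp⟩
  | succ k ih =>
    obtain ⟨p, p', c1, c2, c3, c4, c5, c6⟩ := ih (iter_dr h ph a b k)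
    simp only [Function.iterate_succ_apply'] at b' ⊢
    obtain ⟨q, d1, d2⟩ := bet_phi' D h ph hτ i (ph.iter_om a k) _ b' c2 (c6 ▸ spl_add c5 _)
    obtain ⟨-, -, -, -, d3, -⟩ := bet_phi D h ph hτ i (ph.iter_om a k) (iter_dr h ph a b k) b'
    exact ⟨p, q, c1, d1, d3.trans c3, by rw [d2, c4], c5, by
      rw [d2, c6, Nat.cast_succ, add_smul, one_smul, add_assoc]⟩

end Vale.Agent.P275HE
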