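import Vale.Agent.P275HE.Cst

/-!
# P275, block HE: isomorphisms extend to the transforms
-/

set_option linter.unusedSectionVars false

open scoped Topology Matrix.Norms.Operator
open Set Filter Metric Matrix

noncomputable section

namespace Vale.Agent.P275HE

open Vale.Agent.P275GC Vale.Agent.P275GC.At Vale.Agent.P275MO Vale.Agent.P275MB
open Vale.Agent.P275NA (Fm Cy Mn)
open Vale.Agent.P281Z.Hm (an_det an_inv)

variable {C : Type} [TopologicalSpace C] {n : ℕ} {A : At C} {l : Cy A ℂ} {i j : Fin A.N} {w : ℂ}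
  {z z' z₂ z₂' : Dat C A.N n} {x y : C} {o : Fin n} {t t' : Fin A.N → ℂ} {u u₂ φ : Fm A (Mn n)}
  {h : Mn n} {r r' : ℝ} {h1 : 1 < r} {h2 : r ≤ A.R}

theorem Hk.res (k : Hk A o z z' y t u) : Hk (A.res r h1 h2) o z z' y t u :=
  ⟨k.lam, k.x, fun i => (k.hol i).mono off_res, fun i w a => k.det i w (off_res a),
    fun i j w a => k.law i j w (res_O.1 a).1, fun i w a => k.con i w (off_res a),
    fun i a => k.loc i a.1, k.spl, k.R, fun i a => k.fr i a.1⟩

theorem Hk.mono (k : Hk (A.res r h1 h2) o z z' y t u) (h1' : 1 < r') (h3 : r' ≤ r) :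
    Hk (A.res r' h1' (h3.trans h2)) o z z' y t u :=
  have := Hk.res (h1 := h1') (h2 := h3) k
  (rr h1' h3 fun E => Hk (E.at h1') o z z' y t u).1 this

theorem Hk.congr (k : Hk A o z z' y t u) (e : ∀ i, y ∈ (A.e i).source → t' i = t i) :
    Hk A o z z' y t' u :=
  { k with loc := fun i hy => e i hy ▸ k.loc i hy }

theorem Adm.res (a : Adm A o z y t) : Adm (A.res r h1 h2) o z y t :=
  ⟨a.or, a.spl, a.nr, fun e i b => a.pole e i b.1, fun e i b => a.smp e i b.1,
    fun e i j b c => a.cmp e i j b.1 c.1⟩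

theorem Adm.mono (a : Adm (A.res r h1 h2) o z y t) (h1' : 1 < r') (h3 : r' ≤ r) :
    Adm (A.res r' h1' (h3.trans h2)) o z y t :=
  have := Adm.res (h1 := h1') (h2 := h3) a
  (rr h1' h3 fun E => Adm (E.at h1') o z y t).1 this

theorem LH.conj {k : ℕ} {lam y t : ℂ} {b b₂ W f : ℂ → Mn n} (h : LH k lam y t b₂ W)
    (hb : AnalyticAt ℂ b y) (hb₂ : AnalyticAt ℂ b₂ y) (hf : AnalyticAt ℂ f y) (d : (f y).det ≠ 0)
    (e : ∀ᶠ w in 𝓝[≠] y, (lam * (w - y)) • deriv f w + b₂ w * f w = f w * b w) :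
    LH k lam y t b fun w => W w * f w := by
  obtain ⟨b', a1, a2⟩ := h.con
  obtain ⟨δ, d1, d2, d3⟩ := h.det
  refine ⟨h.an.mul hf, ⟨b', a1, ?_⟩, ⟨fun w => δ w * (f w).det, d1.mul (an_det hf),
    mul_ne_zero d2 d, d3.mono fun w hw => by rw [Matrix.det_mul, hw, mul_assoc]⟩, fun v hv => ?_⟩
  · filter_upwards [a2, e, (h.an.eventually_analyticAt.and hf.eventually_analyticAt).filter_mono
      nhdsWithin_le_nhds] with w c1 c2 c3
    have c4 := congrArg (· * f w) c1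
    have c5 := congrArg (W w * ·) c2
    rw [dmul c3.1 c3.2]
    simp only [add_mul, mul_add, smul_mul_assoc, mul_smul_comm, mul_assoc] at c4 c5 ⊢
    linear_combination (norm := module) c4 + c5
  · rw [← mulVec_mulVec] at hv
    have c := h.ker _ hv
    rw [mulVec_mulVec, con_self hb hf hb₂ e, ← mulVec_mulVec, ← mulVec_smul, ← sub_eq_zero,
      ← mulVec_sub] at c
    exact sub_eq_zero.1 (inj_det d c)

theorem comm_pe {R R' : Mn n} (e : R' * h = h * R) (s : R * pe o = pe o * R)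
    (s' : R' * pe o = pe o * R') (a : Smp R.charpoly (R o o)) (a' : Smp R'.charpoly (R' o o))
    (b : R' o o = R o o) : h * pe o = pe o * h := by
  have := sp_conj a (b ▸ a') e
  rw [sp_pe s a, ← b, sp_pe s' a'] at this
  exact this.symm

variable [T2Space C]

theorem Hk.an (k : Hk A o z z' y t u) (hw : w ∈ off A y i) : AnalyticAt ℂ (u i) w :=
  (k.hol i).analyticAt ((off_open y i).mem_nhds hw)

theorem Hk.ne (k : Hk A o z z' y t u) (hw : w ∈ off A y i) : (u i w).det ≠ 0 := by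
  rw [k.det i w hw]; exact one_ne_zero

theorem hom_bz (f : Hom A z z₂ φ) (hw : w ∈ off A z.x i) :
    (z.lam * A.sg z.x z.x i w) • deriv (φ i) w + bz A z₂ i w * φ i w = φ i w * bz A z i w := by
  rw [bz_off hw, bz_off (f.x ▸ hw), f.x, smul_mul_assoc, mul_smul_comm, ← f.con i w hw, mul_comm,
    mul_smul, smul_add]

/-- the induced map -/
def ind (u u₂ φ : Fm A (Mn n)) : Fm A (Mn n) := fun i => xm fun w => u₂ i w * φ i w * (u i w)⁻¹

/-- **isomorphisms extend to the transforms** -/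
theorem Hk.iso (g : Good A l z) (g' : Good A l z') (g₂ : Good A l z₂) (g₂' : Good A l z₂')
    (a : Adm A o z y t) (f : IsoBy A z z₂ φ h) (e : z₂.R o o = z.R o o) (k : Hk A o z z' y t u)
    (k₂ : Hk A o z₂ z₂' y t u₂) : ∃ c c' : ℂ, h * pe o = pe o * h ∧
      IsoBy A z' z₂' (ind u u₂ φ) (c • pe o + c' • ((1 - pe o) * h)) ∧
      ∀ i, ∀ w ∈ off A y i, ind u u₂ φ i w * u i w = u₂ i w * φ i w := by
  have an0 : ∀ i, ∀ w ∈ off A y i, AnalyticAt ℂ (fun w => u₂ i w * φ i w * (u i w)⁻¹) w :=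
    fun i w hw => ((k₂.an hw).mul (f.hol.an hw.1 i)).mul (an_inv (k.an hw) (k.ne hw))
  have m : ∀ i, ∀ w ∈ off A y i, ind u u₂ φ i w * u i w = u₂ i w * φ i w := fun i w hw => by
    rw [ind, xm_self (an0 i w hw), nonsing_inv_mul_cancel_right _ _ (k.ne hw).isUnit]
  have an : ∀ i, ∀ w ∈ ball (0 : ℂ) A.R,
      AnalyticAt ℂ (ind u u₂ φ i) w ∧ (ind u u₂ φ i w).det ≠ 0 := by
    intro i w hw
    by_cases e : (A.e i).symm w = y
    · have hy : y ∈ (A.e i).source := e ▸ map_tgt hw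
      obtain rfl : w = A.e i y := by rw [← e, rinv hw]
      obtain ⟨W, b1, b2⟩ := k.lh g' a.or hy
      obtain ⟨W₂, c1, c2⟩ := k₂.lh g₂' (by rw [f.x, f.lam]; exact a.or) hy
      rw [f.x, f.lam] at c1
      obtain ⟨ψ, d1, d2, d3⟩ := b1.uniq (bz_an g hw i) (a.nrz g hy) (c1.conj (bz_an g hw i)
        (bz_an g₂ hw i) (f.hol.an hw i) (f.det i _ hw) ((ev_ne' hw i z.x).mono fun v hv => by
          rw [lam_sg a.or hy]; exact hom_bz f.toHom hv))
      have d4 : ∀ᶠ v in 𝓝[≠] (A.e i y), u₂ i v * φ i v * (u i v)⁻¹ = ψ v := by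
        filter_upwards [b2, c2, d3.filter_mono nhdsWithin_le_nhds, off_ev hy, self_mem_nhdsWithin]
          with v e1 e2 e3 e4 e5
        rw [← e1, ← e2, smul_mul_assoc, mul_smul_comm] at e3
        rw [smul_right_injective _ (sub_ne_zero.2 e5) e3,
          mul_nonsing_inv_cancel_right _ _ (k.ne e4).isUnit]
      exact ⟨xm_an d1 d4, by rwa [ind, (xm_ev d1 d4).self_of_nhds]⟩
    · refine ⟨xm_an (an0 i w ⟨hw, e⟩) (Eventually.of_forall fun _ => rfl), fun d => ?_⟩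
      have := congrArg Matrix.det (m i w ⟨hw, e⟩)
      rw [Matrix.det_mul, Matrix.det_mul, d, zero_mul] at this
      exact mul_ne_zero (k₂.ne ⟨hw, e⟩) (f.det i w hw) this.symm
  have H : Hom A z' z₂' (ind u u₂ φ) := by
    refine ⟨by rw [k₂.lam, f.lam, k.lam], by rw [k₂.x, f.x, k.x], hl_of fun i w hw => (an i w hw).1,
      fun i j w hw => ?_, fun i w hw => ?_⟩
    · refine (ev_of_punct (f := fun w => ind u u₂ φ i w * z'.g i j w)
        (g := fun w => z₂'.g i j w * ind u u₂ φ j (A.tr i j w))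
        ((an i w hw.1).1.continuousAt.mul (g'.cc.an hw).continuousAt)
        ((g₂'.cc.an hw).continuousAt.mul ((an j _ (tr_ball hw)).1.comp (an_tr hw)).continuousAt)
        ((ev_O hw y).mono fun v hv => ?_)).self_of_nhds
      refine cancel_det (k.ne (off_tr hv.1 hv.2)) ?_
      rw [mul_assoc, ← k.law i j v hv.1 hv.2, ← mul_assoc, m i v ⟨hv.1.1, hv.2⟩, mul_assoc,
        f.law i j v hv.1, ← mul_assoc, k₂.law i j v hv.1 hv.2, mul_assoc,
        ← m j _ (off_tr hv.1 hv.2), mul_assoc]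
    · have a1 := (an i w hw.1).1
      have a2 : AnalyticAt ℂ (deriv (ind u u₂ φ i)) w := a1.deriv
      have hw₂ : w ∈ off A z₂'.x i := by rwa [k₂.x, f.x, ← k.x]
      refine (ev_of_punct (f := fun w => z'.lam • deriv (ind u u₂ φ i) w + z₂'.a i w *
        ind u u₂ φ i w) (g := fun w => ind u u₂ φ i w * z'.a i w)
        ((a2.continuousAt.fun_const_smul _).add ((a_an g₂' hw₂).continuousAt.mul a1.continuousAt))
        (a1.continuousAt.mul (a_an g' hw).continuousAt)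
        (((ev_ne' hw.1 i y).and (ev_ne' hw.1 i z.x)).mono fun v ⟨b1, b2⟩ => ?_)).self_of_nhds
      have c1 := congrArg (ind u u₂ φ i v * ·) (k.con i v b2 b1.2)
      have c2 := congrArg (· * φ i v) (k₂.con i v (f.x ▸ b2) b1.2)
      have c3 := congrArg (u₂ i v * ·) (f.con i v b2)
      have c4 := congrArg (· * z.a i v) (m i v b1)
      have c5 := congrArg (z₂'.a i v * ·) (m i v b1)
      have c6 : deriv (fun w => ind u u₂ φ i w * u i w) v = deriv (fun w => u₂ i w * φ i w) v :=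
        EventuallyEq.deriv_eq (eventually_of_mem ((off_open y i).mem_nhds b1) (m i))
      rw [dmul (an i v b1.1).1 (k.an b1), dmul (k₂.an b1) (f.hol.an b1.1 i)] at c6
      refine cancel_det (k.ne b1) ?_
      simp only [add_mul, mul_add, smul_mul_assoc, mul_smul_comm, mul_assoc, f.lam, k.lam]
        at c1 c2 c3 c4 c5 c6 ⊢
      linear_combination (norm := module) z.lam • c6 - c1 + c2 + c3 - c4 + c5
  obtain ⟨i, hx, -⟩ := A.cov z.x
  have I := Hom.isoBy g' g₂' H (fun i w hw => (an i w hw).2) (k.x ▸ hx)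
  have cj : ∀ {z z₂ : Dat C A.N n} {φ h}, Good A l z → Good A l z₂ → IsoBy A z z₂ φ h →
      z₂.R * h = h * z.R := fun g g₂ f => by
    rw [IsoBy.R g g₂ f, nonsing_inv_mul_cancel_right _ _ (IsoBy.det_h g f).isUnit]
  have n₂ : NR z₂.R (z₂.R o o) z₂.lam := by
    rw [e, f.lam]
    exact a.nr.congr (char_conj (IsoBy.det_h g f) (cj g g₂ f))
  have p := comm_pe (cj g g₂ f) a.spl k₂.spl a.nr.smp n₂.smp e
  have p' := comm_pe (o := o) (cj g' g₂' I) (k.R ▸ spl_add a.spl _) (k₂.R ▸ spl_add k₂.spl _)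
    (k.R ▸ smp_add a.spl a.nr) (k₂.R ▸ smp_add k₂.spl n₂)
    (by rw [k.R, k₂.R, add_oo, add_oo, e, f.lam])
  obtain ⟨U, c, c0, b1, b2⟩ := k.fr i hx
  obtain ⟨U₂, c₂, -, d1, d2⟩ := k₂.fr i (f.x ▸ hx)
  rw [f.x] at d1
  have q : ind u u₂ φ i (A.e i z.x) * U = U₂ * φ i (A.e i z.x) := by
    refine tendsto_nhds_unique_of_eventuallyEq ((lim_an (an i _ (map_src hx)).1).mul b1)
      (d1.mul (lim_an (f.hol.an (map_src hx) i))) ((ev_ne' (map_src hx) i y).mono fun v hv => ?_)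
    simp only [mul_smul_comm, smul_mul_assoc, m i v hv]
  rw [k.x] at I p'
  have s : c • ((z₂'.σ i)⁻¹ * ind u u₂ φ i (A.e i z.x) * z'.σ i * (1 - pe o)) =
      c₂ • ((1 - pe o) * h) := by
    have p₁ : h * (1 - pe o) = (1 - pe o) * h := by rw [mul_sub, sub_mul, p, mul_one, one_mul]
    rw [mul_assoc, ← mul_smul_comm, ← b2, mul_assoc, ← mul_assoc _ (U * _), ← mul_assoc _ U, q,
      mul_assoc U₂, f.fr i hx, mul_assoc U₂, mul_assoc (z₂.σ i), p₁, ← mul_assoc, ← mul_assoc,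
      ← mul_assoc, mul_assoc _ U₂, mul_assoc _ (U₂ * _), d2, mul_smul_comm,
      nonsing_inv_mul_cancel_left _ _ (g₂'.fr i (by rwa [k₂.x, f.x])).isUnit, smul_mul_assoc]
  refine ⟨((z₂'.σ i)⁻¹ * ind u u₂ φ i (A.e i z.x) * z'.σ i) o o, c⁻¹ * c₂, p, ?_, m⟩
  rwa [← mul_pe p', mul_smul, ← s, inv_smul_smul₀ c0, ← mul_add, add_sub_cancel, mul_one]

end Vale.Agent.P275HE
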