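import Vale.Agent.P275HE.Phi
import Vale.Agent.P275HE.TyY
import Vale.Agent.P275HT.Hot
import Vale.Agent.P275HC.Main

/-!
# P275, block HE: the final statements
-/

open scoped Topology Matrix.Norms.Operator
open Set Filter Metric Matrix

noncomputable section

namespace Vale.Agent.P275HE

open Vale.Agent.P275GC Vale.Agent.P275GC.At Vale.Agent.P275MO
open Vale.Agent.P275NA (Fm Cy Mn)

variable {C : Type} [TopologicalSpace C] [T2Space C] {n : ℕ} {A : At C} {l : Cy A ℂ} {τ : Ty n}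
  {o : Fin n} {j : Fin τ.m} {κ : ℝ} {d : ℤ}

theorem hot_ok (hS : Std A l n d) (k : KUR n A l) (h : HTy τ o j κ) : HOT A l τ o j :=
  P275HT.hot hS h (psi_ok hS.two k h) (P275HC.cmps h)

/-- families, with the extension `W` of `(w - x) u` -/
theorem famW (hn : 2 ≤ n) (ht : HTy τ o j κ) {T : Type} [TopologicalSpace T] (F : T → Ob A l τ)
    (t : T) (f : FamAt A l (fun s => (F s).1) t) (om : ∀ s, (F s).pt ∈ Om A l τ j) :
    ∃ (r : ℝ) (h1 : 1 < r) (h2 : r ≤ A.R), ∃ V ∈ 𝓝 t, ∃ (h : T → Mn n) (F' : T → Ob A l τ)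
      (u W : T → Fm A (Mn n)), FamOn (A.res r h1 h2) l (fun s => (F s).1) V ∧
      FamOn (A.res r h1 h2) l (fun s => (F' s).1) V ∧ ContinuousOn h V ∧
      (∀ i, ContinuousOn (fun p : T × ℂ => u p.1 i p.2)
        {p | p.1 ∈ V ∧ p.2 ∈ off (A.res r h1 h2) (F p.1).1.x i}) ∧
      (∀ i, ContinuousOn (fun p : T × ℂ => W p.1 i p.2) (V ×ˢ univ)) ∧
      ∀ s ∈ V, h s ∈ τ.H ∧ (h s).det = 1 ∧ (F' s).pt = phi o (F s).pt ∧
        Hk (A.res r h1 h2) o ((F s).1.act (h s)) (F' s).1 (F s).1.x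
          (fun _ => (F s).1.R o o) (u s) ∧
        Adm (A.res r h1 h2) o ((F s).1.act (h s)) (F s).1.x (fun _ => (F s).1.R o o) ∧
        ∀ i : Fin A.N, (F s).1.x ∈ ((A.res r h1 h2).e i).source →
          (∀ w ∈ off (A.res r h1 h2) (F s).1.x i, W s i w = (w - A.e i (F s).1.x) • u s i w) ∧
          ∀ v, W s i (A.e i (F s).1.x) *ᵥ v = 0 ↔
            ∃ c : ℂ, v = c • (((F s).1.σ i * h s) *ᵥ Pi.single o 1) := by
  obtain ⟨r, h1, h2, V, c, F', a, b, d, e, g⟩ := ht.fam hn f om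
  have s := fun s => ht.spl (F s).2.2
    (ht.nr (F s).2.2 (om_pt.1 (om s)).2 (om_pt.1 (om s)).1).smp
  refine ⟨r, h1, h2, V, c, _, F', fun s => uz (A.res r h1 h2) ((F s).1.act (hs o (F s).1.R))
    (F s).1.x fun _ => (F s).1.R o o, fun s => Vz (A.res r h1 h2) ((F s).1.act (hs o (F s).1.R))
    (F s).1.x fun _ => (F s).1.R o o, a, b, d, e.uz, e.Vz, fun p hp =>
    ⟨(s p).1, (s p).2.1, (g p hp).1, (g p hp).2, e.adm p hp, fun i hi => ⟨fun w hw => ?_,
      Vz_ker_iff (A := A.res r h1 h2) (e.f.good p hp) (e.adm p hp) hi⟩⟩⟩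
  exact (sg_uz (A := A.res r h1 h2) hw).symm.trans
    (congrArg (· • _) (congrFun (sg_mem (A := A.res r h1 h2) hi) w))

end Vale.Agent.P275HE
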