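import Vale.Agent.P275HE.Psi

/-!
# P275, block HE: construction of the elementary transformation
-/

set_option linter.unusedSectionVars false

open scoped Topology Matrix.Norms.Operator
open Set Filter Metric Matrix

noncomputable section

namespace Vale.Agent.P275HE

open Vale.Agent.P275GC Vale.Agent.P275GC.At Vale.Agent.P275MO Vale.Agent.P275MB
open Vale.Agent.P275NA (Fm Cy Mn)
open Vale.Agent.P281Z.Hm (an_det an_inv)

variable {C : Type} [TopologicalSpace C] {n : ℕ}

section defs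

variable (A : At C) (z : Dat C A.N n) (y : C) (t : Fin A.N → ℂ)

/-- the composite of `k` steps in the chart `i` -/
def Uz (k : ℕ) (i : Fin A.N) : ℂ → Mn n :=
  UU z.lam (A.e i y) k (nf A z.x y i * t i) (bz A z i)

open Classical in
/-- the composite of `n` steps, or the identity -/
def Vz (i : Fin A.N) : ℂ → Mn n := if y ∈ (A.e i).source then Uz A z y t n i else fun _ => 1

/-- the transformation -/
def uz (i : Fin A.N) (w : ℂ) : Mn n := (A.sg y y i w)⁻¹ • Vz A z y t i w

/-- the new cocycle -/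
def gz (i j : Fin A.N) : ℂ → Mn n :=
  xm fun w => uz A z y t i w * z.g i j w * (uz A z y t j (A.tr i j w))⁻¹

open Classical in
/-- the new twisted matrix of the connection -/
def bn (i : Fin A.N) : ℂ → Mn n :=
  if y ∈ (A.e i).source then
    fun w => bb z.lam (A.e i y) n (nf A z.x y i * t i) (bz A z i) w + z.lam • 1
  else bz A z i

/-- the new frame in the chart `i₀` -/
def sz (o : Fin n) (i₀ : Fin A.N) (τ₀ : Mn n) : Mn n :=
  sp (bn A z y t i₀ (A.e i₀ z.x)) ((z.R + z.lam • mu o) o o) * τ₀ * pe o +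
    Vz A z y t i₀ (A.e i₀ z.x) * z.σ i₀ * (1 - pe o)

/-- the new object -/
def tz (o : Fin n) (i₀ : Fin A.N) (τ₀ : Mn n) : Dat C A.N n :=
  ⟨z.lam, z.x, gz A z y t, fun i w => (A.sg z.x z.x i w)⁻¹ • bn A z y t i w,
    fun i => gz A z y t i i₀ (A.e i z.x) * sz A z y t o i₀ τ₀, z.R + z.lam • mu o⟩

end defs

variable {A : At C} {l : Cy A ℂ} {i j k i₀ : Fin A.N} {w : ℂ} {z z' : Dat C A.N n} {x y : C}
  {o : Fin n} {t : Fin A.N → ℂ} {u : Fm A (Mn n)} {τ₀ : Mn n} {m : ℕ} [T2Space C]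

theorem Uz_an (w : ℂ) : AnalyticAt ℂ (Uz A z y t m i) w := UU_diff.analyticAt w

theorem Vz_mem (hy : y ∈ (A.e i).source) : Vz A z y t i = Uz A z y t n i := if_pos hy

theorem Vz_not (hy : y ∉ (A.e i).source) : Vz A z y t i = fun _ => 1 := if_neg hy

theorem Vz_an (w : ℂ) : AnalyticAt ℂ (Vz A z y t i) w := by
  by_cases hy : y ∈ (A.e i).source
  · rw [Vz_mem hy]; exact Uz_an w
  · rw [Vz_not hy]; exact analyticAt_const

theorem Vz_det (g : Good A l z) (h : Adm A o z y t) (w : ℂ) :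
    (Vz A z y t i w).det = A.sg y y i w ^ n := by
  by_cases hy : y ∈ (A.e i).source
  · rw [Vz_mem hy, sg_mem hy]; exact UU_det (h.nrz g hy) w
  · rw [Vz_not hy, sg_not hy]; simp

theorem uz_an (hw : w ∈ off A y i) : AnalyticAt ℂ (uz A z y t i) w :=
  ((an_sg y y i w).inv (sg_ne hw)).smul (Vz_an w)

theorem uz_det (g : Good A l z) (h : Adm A o z y t) (hw : w ∈ off A y i) :
    (uz A z y t i w).det = 1 := by
  rw [uz, det_smul, Vz_det g h, Fintype.card_fin, ← mul_pow, inv_mul_cancel₀ (sg_ne hw), one_pow]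

theorem sg_uz (hw : w ∈ off A y i) : A.sg y y i w • uz A z y t i w = Vz A z y t i w := by
  rw [uz, smul_inv_smul₀ (sg_ne hw)]

theorem bn_an (g : Good A l z) (hw : w ∈ ball (0 : ℂ) A.R) (i : Fin A.N) :
    AnalyticAt ℂ (bn A z y t i) w := by
  by_cases hy : y ∈ (A.e i).source
  · rw [bn, if_pos hy]
    exact ((bb_diff (isOpen_ball.mem_nhds (map_src hy)) (bz_diff g i)).analyticAt
      (isOpen_ball.mem_nhds hw)).add analyticAt_const
  · rw [bn, if_neg hy]; exact bz_an g hw i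

theorem bn_tr (g : Good A l z) (h : Adm A o z y t) (hw : w ∈ off A z.x i) :
    (bn A z y t i w).trace = 0 := by
  have a : (bz A z i w).trace = 0 := by rw [bz_off hw, trace_smul, g.tr i w hw, smul_zero]
  by_cases hy : y ∈ (A.e i).source
  · rw [bn, if_pos hy]
    rw [trace_add, bb_tr (h.nrz g hy), a, trace_smul, trace_one, Fintype.card_fin, smul_eq_mul]
    ring
  · rw [bn, if_neg hy, a]

theorem Uz_con (g : Good A l z) (h : Adm A o z y t) (hy : y ∈ (A.e i).source) (w : ℂ) :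
    (z.lam * A.sg z.x z.x i w) • deriv (Uz A z y t n i) w +
      (bn A z y t i w - z.lam • 1) * Uz A z y t n i w = Uz A z y t n i w * bz A z i w := by
  rw [bn, if_pos hy, add_sub_cancel_right, ← lam_sg h.or hy]
  exact UU_con (h.nrz g hy) w

theorem uz_con (g : Good A l z) (h : Adm A o z y t) (hw : w ∈ off A z.x i)
    (hy' : (A.e i).symm w ≠ y) : z.lam • deriv (uz A z y t i) w +
      (tz A z y t o i₀ τ₀).a i w * uz A z y t i w = uz A z y t i w * z.a i w := by
  have s := sg_ne hw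
  by_cases hy : y ∈ (A.e i).source
  · have n0 := sub_ne_zero.2 ((ne_iff hy hw.1).1 hy')
    have e : uz A z y t i = fun w => (w - A.e i y)⁻¹ • Uz A z y t n i w := by
      funext v; rw [uz, sg_mem hy, Vz_mem hy]
    have d : deriv (uz A z y t i) w = (w - A.e i y)⁻¹ • deriv (Uz A z y t n i) w +
        (-1 / (w - A.e i y) ^ 2) • Uz A z y t n i w := by
      rw [e]
      exact ((((hasDerivAt_id w).sub_const _).inv n0).smul
        (Uz_an w).differentiableAt.hasDerivAt).deriv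
    have c := Uz_con g h hy w
    have c' := lam_sg h.or hy w
    rw [bz_off hw, mul_smul_comm, sub_mul, smul_mul_assoc, one_mul] at c
    rw [d, e]
    refine smul_right_injective _ (mul_ne_zero s n0) ?_
    simp only [tz, smul_mul_assoc, mul_smul_comm, smul_add, smul_smul]
    have f1 : A.sg z.x z.x i w * (w - A.e i y) * (z.lam * (w - A.e i y)⁻¹) =
        z.lam * A.sg z.x z.x i w := by field_simp
    have f2 : A.sg z.x z.x i w * (w - A.e i y) * (z.lam * (-1 / (w - A.e i y) ^ 2)) = -z.lam := by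
      rw [show A.sg z.x z.x i w * (w - A.e i y) * (z.lam * (-1 / (w - A.e i y) ^ 2)) =
        -(z.lam * A.sg z.x z.x i w) / (w - A.e i y) by field_simp, ← c']
      field_simp
    have f3 : A.sg z.x z.x i w * (w - A.e i y) * ((w - A.e i y)⁻¹ * (A.sg z.x z.x i w)⁻¹) = 1 := by
      field_simp
    have f4 : A.sg z.x z.x i w * (w - A.e i y) * (w - A.e i y)⁻¹ = A.sg z.x z.x i w := by
      field_simp
    rw [f1, f2, f3, f4, ← c]
    module
  · have e : uz A z y t i = fun _ => 1 := by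
      funext v; rw [uz, sg_not hy, Vz_not hy, inv_one, one_smul]
    rw [e, dconst]
    simp only [tz, bn, if_neg hy, bz_off hw, inv_smul_smul₀ s, smul_zero, zero_add, mul_one,
      one_mul]

theorem dcomp {f : ℂ → Mn n} (h : w ∈ A.O i j) (hf : AnalyticAt ℂ f (A.tr i j w)) :
    deriv (fun v => f (A.tr i j v)) w = A.d i j w • deriv f (A.tr i j w) :=
  (hf.differentiableAt.hasDerivAt.scomp w (has_tr h)).deriv

theorem d_inv (h : w ∈ A.O i j) : A.d i j w * A.d j i (A.tr i j w) = 1 := A.cc_d.inv h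

/-- the steps of the chart `j`, seen in the chart `i` -/
theorem lh_tr (g : Good A l z) (h : Adm A o z y t) (hy : y ∈ (A.e i).source)
    (hy' : y ∈ (A.e j).source) (m : ℕ) : LH m z.lam (A.e i y) (nf A z.x y i * t i) (bz A z i)
      fun w => Uz A z y t m j (A.tr i j w) * z.g j i (A.tr i j w) := by
  have hO := mem_O hy hy'
  have nr := h.nrz g hy'
  have a1 := an_tr hO
  have a2 := (g.cc.an (tr_mem hO)).comp a1
  refine ⟨((Uz_an _).comp a1).mul a2, ⟨fun w => (A.ox z.x z.x i j w * A.d i j w) •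
    bb z.lam (A.e j y) m (nf A z.x y j * t j) (bz A z j) (A.tr i j w) -
    (A.sg z.x z.x i w * A.d i j w * lc n z.lam l j i (A.tr i j w)) • 1, ?_, ?_⟩,
    ⟨fun w => dslope (A.tr i j) (A.e i y) w ^ m * (z.g j i (A.tr i j w)).det, ?_, ?_, ?_⟩,
    fun v hv => ?_⟩
  · refine ((((A.cc_ox z.x).an hO).mul (an_d hO)).smul (AnalyticAt.comp ?_ a1)).sub
      ((((an_sg _ _ _ _).mul (an_d hO)).mul ((lc_an (Good.cc_l g) (tr_mem hO) _).comp a1)).smul
        analyticAt_const)
    rw [tr_e hy]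
    exact bb_an (bz_an g (map_src hy') j)
  · filter_upwards [mem_nhdsWithin_of_mem_nhds (O_nhds hO), ev_ne' hO.1 i z.x] with w hw hx
    have hx' := off_tr hw hx.2
    have e1 := Good.law' g (tr_mem hw) hx'.2
    have e2 := UU_con (k := m) nr (A.tr i j w)
    have e3 := A.sec_sg z.x i j w hw
    have e4 := d_inv hw
    rw [tr_inv hw] at e1
    rw [lam_sg h.or hy', bz_off hx', mul_smul_comm] at e2
    rw [dmul (f := fun w => Uz A z y t m j (A.tr i j w)) (g := fun w => z.g j i (A.tr i j w))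
      ((Uz_an _).comp (an_tr hw)) ((g.cc.an (tr_mem hw)).comp (an_tr hw)),
      dcomp hw (Uz_an _), dcomp hw (g.cc.an (tr_mem hw))]
    rw [lam_sg h.or hy, bz_off hx, e3, smul_eq_mul]
    have e5 : z.g j i (A.tr i j w) * z.a i w = A.d i j w • (z.a j (A.tr i j w) *
        z.g j i (A.tr i j w) + z.lam • deriv (z.g j i) (A.tr i j w) -
        lc n z.lam l j i (A.tr i j w) • z.g j i (A.tr i j w)) := by
      rw [e1, lc, add_sub_cancel_right, smul_smul, e4, one_smul]
    have e6 := congrArg (· * z.g j i (A.tr i j w)) e2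
    simp only [Uz, mul_smul_comm, smul_mul_assoc, mul_assoc, e5, mul_add, mul_sub,
      add_mul, sub_mul, one_mul] at e6 ⊢
    linear_combination (norm := module) (A.ox z.x z.x i j w * A.d i j w) • e6
  · exact ((At.an_dslope hO hO).pow m).mul (an_det a2)
  · exact mul_ne_zero (pow_ne_zero _ (dslope_ne hO hO)) (g.cc.det_ne (tr_mem hO))
  · refine Eventually.of_forall fun w => ?_
    rw [Matrix.det_mul, Uz, UU_det nr, ← mul_assoc, ← mul_pow, ← smul_eq_mul (w - _), sub_smul_dslope,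
      tr_e hy]
  · rw [tr_e hy, ← mulVec_mulVec] at hv
    have e1 := UU_ker nr hv
    rw [bz_val hy', smul_mulVec, mul_smul] at e1
    have e2 := h.eig g hy hy' (smul_right_injective _ (nf_ne hy') e1)
    have e3 := g.cc.inv hO
    rw [tr_e hy] at e3
    rw [mulVec_mulVec v, e3, one_mulVec] at e2
    rw [bz_val hy, smul_mulVec, e2, mul_smul]

theorem uz_ne (g : Good A l z) (h : Adm A o z y t) (hw : w ∈ off A y i) :
    (uz A z y t i w).det ≠ 0 := by
  rw [uz_det g h hw]; exact one_ne_zero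

theorem gz_an0 (g : Good A l z) (h : Adm A o z y t) (hw : w ∈ A.O i j) (e : (A.e i).symm w ≠ y) :
    AnalyticAt ℂ (fun v => uz A z y t i v * z.g i j v * (uz A z y t j (A.tr i j v))⁻¹) w :=
  ((uz_an ⟨hw.1, e⟩).mul (g.cc.an hw)).mul (an_inv (f := fun v => uz A z y t j (A.tr i j v))
    ((uz_an (off_tr hw e)).comp (an_tr hw)) (uz_ne g h (off_tr hw e)))

theorem gz_ext (g : Good A l z) (h : Adm A o z y t) (hw : w ∈ A.O i j) : ∃ ψ, AnalyticAt ℂ ψ w ∧
    ∀ᶠ v in 𝓝[≠] w, uz A z y t i v * z.g i j v * (uz A z y t j (A.tr i j v))⁻¹ = ψ v := by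
  by_cases e : (A.e i).symm w = y
  · have hy : y ∈ (A.e i).source := e ▸ map_tgt hw.1
    have hy' : y ∈ (A.e j).source := e ▸ hw.2
    obtain rfl : w = A.e i y := by rw [← e, rinv hw.1]
    obtain ⟨φ, a1, -, a3⟩ := (lh_tr g h hy hy' n).uniq (bz_an g hw.1 i) (h.nrz g hy)
      (UU_lh (bz_an g hw.1 i) (h.nrz g hy))
    refine ⟨fun v => (A.ox y y i j v)⁻¹ • φ v,
      (((A.cc_ox y).an hw).inv ((A.cc_ox y).ne hw)).smul a1, ?_⟩
    filter_upwards [a3.filter_mono nhdsWithin_le_nhds, mem_nhdsWithin_of_mem_nhds (O_nhds hw),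
      ev_ne' hw.1 i y] with v b1 b2 b3
    have b4 := off_tr b2 b3.2
    have b5 := uz_ne g h b4
    refine cancel_det b5 ?_
    rw [nonsing_inv_mul_cancel_right _ _ b5.isUnit, uz, uz, Vz_mem hy, Vz_mem hy', Uz, b1,
      smul_mul_assoc, mul_assoc, mul_assoc, g.cc.inv' b2, mul_one, A.sec_sg y i j v b2,
      smul_mul_assoc, mul_smul_comm, smul_smul, smul_eq_mul, mul_inv]
  · exact ⟨_, gz_an0 g h hw e, Eventually.of_forall fun _ => rfl⟩

theorem gz_an (g : Good A l z) (h : Adm A o z y t) (hw : w ∈ A.O i j) :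
    AnalyticAt ℂ (gz A z y t i j) w := by
  obtain ⟨ψ, a, b⟩ := gz_ext g h hw
  exact xm_an a b

theorem gz_off (g : Good A l z) (h : Adm A o z y t) (hw : w ∈ A.O i j) (e : (A.e i).symm w ≠ y) :
    gz A z y t i j w = uz A z y t i w * z.g i j w * (uz A z y t j (A.tr i j w))⁻¹ :=
  xm_self (gz_an0 g h hw e)

theorem gz_law (g : Good A l z) (h : Adm A o z y t) (hw : w ∈ A.O i j) (e : (A.e i).symm w ≠ y) :
    uz A z y t i w * z.g i j w = gz A z y t i j w * uz A z y t j (A.tr i j w) := by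
  rw [gz_off g h hw e, nonsing_inv_mul_cancel_right _ _ (uz_ne g h (off_tr hw e)).isUnit]

theorem ev_O (hw : w ∈ A.O i j) (y : C) :
    ∀ᶠ v in 𝓝[≠] w, v ∈ A.O i j ∧ (A.e i).symm v ≠ y :=
  Eventually.and (mem_nhdsWithin_of_mem_nhds (O_nhds hw)) ((ev_ne' hw.1 i y).mono fun _ h => h.2)

theorem gz_det (g : Good A l z) (h : Adm A o z y t) (hw : w ∈ A.O i j) :
    (gz A z y t i j w).det = l i j w := by
  refine (ev_of_punct (an_det (gz_an g h hw)).continuousAt ((Good.cc_l g).an hw).continuousAt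
    ((ev_O hw y).mono fun v hv => ?_)).self_of_nhds
  have := congrArg det (gz_law g h hv.1 hv.2)
  rwa [Matrix.det_mul, Matrix.det_mul, uz_det g h ⟨hv.1.1, hv.2⟩, uz_det g h (off_tr hv.1 hv.2), one_mul,
    mul_one, g.det i j v hv.1, eq_comm] at this

theorem gz_cc (g : Good A l z) (h : Adm A o z y t) : A.Cc (gz A z y t) := by
  refine ⟨fun i j w hw => (gz_an g h hw).differentiableAt.differentiableWithinAt,
    fun i w hw => ?_, fun i j k w hw hw' => ?_⟩
  · refine (ev_of_punct (gz_an g h (O_self (i := i) hw)).continuousAt continuousAt_const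
      ((ev_O (O_self (i := i) hw) y).mono fun v hv => ?_)).self_of_nhds
    rw [gz_off g h hv.1 hv.2, g.cc.one i v hv.1.1, tr_self hv.1.1, mul_one,
      mul_nonsing_inv _ (uz_ne g h ⟨hv.1.1, hv.2⟩).isUnit]
  · refine (ev_of_punct (gz_an g h hw').continuousAt ((gz_an g h hw).mul
      ((gz_an g h (tr_O hw hw')).comp (an_tr hw))).continuousAt
      (((ev_O hw y).and (ev_O hw' y)).mono fun v hv => ?_)).self_of_nhds
    have a := gz_law g h (tr_O hv.1.1 hv.2.1) (off_tr hv.1.1 hv.1.2).2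
    rw [tr_tr hv.1.1] at a
    refine cancel_det (uz_ne g h (off_tr hv.2.1 hv.2.2)) ?_
    rw [← gz_law g h hv.2.1 hv.2.2, Pi.mul_apply, Function.comp, mul_assoc, ← a, ← mul_assoc,
      ← gz_law g h hv.1.1 hv.1.2, mul_assoc, ← g.cc.mul i j k v hv.1.1 hv.2.1]

theorem az_an (g : Good A l z) (hw : w ∈ off A z.x i) :
    AnalyticAt ℂ ((tz A z y t o i₀ τ₀).a i) w :=
  ((an_sg _ _ i w).inv (sg_ne hw)).smul (bn_an g hw.1 i)

theorem az_law (g : Good A l z) (h : Adm A o z y t) (hw : w ∈ A.O i j)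
    (hx : (A.e i).symm w ≠ z.x) :
    (tz A z y t o i₀ τ₀).a i w * gz A z y t i j w + z.lam • deriv (gz A z y t i j) w =
      A.d i j w • (gz A z y t i j w * (tz A z y t o i₀ τ₀).a j (A.tr i j w)) +
        lc n z.lam l i j w • gz A z y t i j w := by
  have a1 := gz_an g h hw
  have a2 : AnalyticAt ℂ (deriv (gz A z y t i j)) w := a1.deriv
  refine (ev_of_punct (f := fun w => (tz A z y t o i₀ τ₀).a i w * gz A z y t i j w +
    z.lam • deriv (gz A z y t i j) w) (g := fun w => A.d i j w • (gz A z y t i j w *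
    (tz A z y t o i₀ τ₀).a j (A.tr i j w)) + lc n z.lam l i j w • gz A z y t i j w)
    (((az_an g ⟨hw.1, hx⟩).continuousAt.mul a1.continuousAt).add 
      (a2.continuousAt.fun_const_smul _))
    (((an_d hw).continuousAt.smul (a1.continuousAt.mul
      ((az_an g (off_tr hw hx)).comp (an_tr hw)).continuousAt)).add
      ((lc_an (Good.cc_l g) hw _).continuousAt.smul a1.continuousAt))
    (((ev_O hw y).and (ev_O hw z.x)).mono fun v ⟨⟨b1, b2⟩, _, b3⟩ => ?_)).self_of_nhds
  have c1 := uz_con (i₀ := i₀) (τ₀ := τ₀) g h ⟨b1.1, b3⟩ b2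
  have c2 := uz_con (i₀ := i₀) (τ₀ := τ₀) g h (off_tr b1 b3) (off_tr b1 b2).2
  have c3 := Good.law' g b1 b3
  have c4 := gz_law g h b1 b2
  have c5 : deriv (fun w => uz A z y t i w * z.g i j w) v =
      deriv (fun w => gz A z y t i j w * uz A z y t j (A.tr i j w)) v := by
    refine EventuallyEq.deriv_eq ?_
    filter_upwards [O_nhds b1, (off_open y i).mem_nhds ⟨b1.1, b2⟩] with p d1 d2
    exact gz_law g h d1 d2.2
  rw [dmul (uz_an ⟨b1.1, b2⟩) (g.cc.an b1), dmul (g := fun w => uz A z y t j (A.tr i j w))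
    (gz_an g h b1) ((uz_an (off_tr b1 b2)).comp (an_tr b1)),
    dcomp b1 (uz_an (off_tr b1 b2))] at c5
  refine cancel_det (uz_ne g h (off_tr b1 b2)) ?_
  have c6 := congrArg (· * z.g i j v) c1
  have c7 := congrArg (gz A z y t i j v * ·) c2
  have c8 := congrArg (uz A z y t i v * ·) c3
  have c9 := congrArg (· * z.a j (A.tr i j v)) c4
  have c10 := congrArg ((tz A z y t o i₀ τ₀).a i v * ·) c4
  simp only [lc, add_mul, mul_add, smul_mul_assoc, mul_smul_comm, mul_assoc]
    at c5 c6 c7 c8 c9 c10 ⊢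
  linear_combination (norm := module) c6 + c8 - c10 - z.lam • c5 - A.d i j v • c7 +
    A.d i j v • c9 + ((n : ℂ)⁻¹ * (z.lam * (deriv (l i j) v / l i j v))) • c4

theorem Vz_law (g : Good A l z) (h : Adm A o z y t) (hw : w ∈ A.O i j) :
    Vz A z y t i w * z.g i j w =
      A.ox y y i j w • (gz A z y t i j w * Vz A z y t j (A.tr i j w)) := by
  refine (ev_of_punct (f := fun w => Vz A z y t i w * z.g i j w) (g := fun w => A.ox y y i j w •
    (gz A z y t i j w * Vz A z y t j (A.tr i j w)))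
    ((Vz_an w).continuousAt.mul (g.cc.an hw).continuousAt)
    (((A.cc_ox y).an hw).continuousAt.smul ((gz_an g h hw).continuousAt.mul
      ((Vz_an _).comp (an_tr hw)).continuousAt)) ((ev_O hw y).mono fun v hv => ?_)).self_of_nhds
  rw [← sg_uz ⟨hv.1.1, hv.2⟩, ← sg_uz (off_tr hv.1 hv.2), smul_mul_assoc, gz_law g h hv.1 hv.2,
    A.sec_sg y i j v hv.1, mul_smul_comm, smul_smul, smul_eq_mul]

/-! ### the new residue -/

theorem bn_V (g : Good A l z) (h : Adm A o z y t) (hx : z.x ∈ (A.e i).source) :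
    bn A z y t i (A.e i z.x) * Vz A z y t i (A.e i z.x) =
      Vz A z y t i (A.e i z.x) * (z.σ i * z.R * (z.σ i)⁻¹ + z.lam • 1) := by
  by_cases hy : y ∈ (A.e i).source
  · have c := Uz_con g h hy (A.e i z.x)
    rw [sg_mem hx, bz_pole hx] at c
    simp only [sub_self, mul_zero, zero_smul, zero_add, sub_mul, smul_mul_assoc, one_mul] at c
    rw [Vz_mem hy, mul_add, ← c, mul_smul_comm, mul_one, sub_add_cancel]
  · have e : z.lam = 0 := h.or.resolve_left fun e => hy (e ▸ hx)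
    rw [Vz_not hy, bn, if_neg hy, bz_pole hx, e, zero_smul, add_zero, mul_one, one_mul]

theorem Vz_ne (g : Good A l z) (h : Adm A o z y t) (hw : w ∈ off A y i) :
    (Vz A z y t i w).det ≠ 0 := by
  rw [Vz_det g h]; exact pow_ne_zero _ (sg_ne hw)

theorem bn_smp (g : Good A l z) (h : Adm A o z y t) (hx : z.x ∈ (A.e i).source) :
    Smp (bn A z y t i (A.e i z.x)).charpoly ((z.R + z.lam • mu o) o o) := by
  by_cases e : y = z.x
  · have hy : y ∈ (A.e i).source := e ▸ hx
    have a := (smp_shift z.lam).2 (bb_nr (k := n) (h.nrz g hy)).smp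
    have b : nf A z.x y i * t i = z.R o o := by rw [h.pole e i hy, nf, if_pos e, one_mul]
    rw [bn, if_pos hy, add_oo, ← b, show A.e i z.x = A.e i y by rw [e]]
    exact a
  · have e0 := h.or.resolve_left e
    have a := bn_V g h hx
    rw [e0, zero_smul, add_zero] at a
    rw [char_conj (Vz_ne g h (mem_off hx (Ne.symm e))) a, char_pole g hx, e0, zero_smul, add_zero]
    exact h.nr.smp

theorem co_R {R : Mn n} (h : R * pe o = pe o * R) (c : ℂ) :
    (R + c • 1) * (1 - pe o) = (1 - pe o) * (R + c • mu o) := by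
  have := pe_pe o
  simp only [mu, mul_add, add_mul, mul_sub, sub_mul, mul_smul_comm, smul_mul_assoc, h, mul_one,
    one_mul, this]
  module

theorem bn_M (g : Good A l z) (h : Adm A o z y t) (hx : z.x ∈ (A.e i).source) :
    bn A z y t i (A.e i z.x) * (Vz A z y t i (A.e i z.x) * z.σ i * (1 - pe o)) =
      Vz A z y t i (A.e i z.x) * z.σ i * (1 - pe o) * (z.R + z.lam • mu o) := by
  have a : (z.σ i * z.R * (z.σ i)⁻¹ + z.lam • 1) * z.σ i = z.σ i * (z.R + z.lam • 1) := by
    rw [add_mul, nonsing_inv_mul_cancel_right _ _ (g.fr i hx).isUnit, mul_add, mul_smul_comm,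
      mul_one, smul_mul_assoc, one_mul]
  rw [mul_assoc _ (1 - pe o), ← co_R h.spl, ← mul_assoc, ← mul_assoc, bn_V g h hx,
    mul_assoc _ _ (z.σ i), a]
  simp only [mul_assoc]

theorem bn_sz (g : Good A l z) (h : Adm A o z y t) (hx : z.x ∈ (A.e i).source) :
    bn A z y t i (A.e i z.x) * sz A z y t o i τ₀ = sz A z y t o i τ₀ * (z.R + z.lam • mu o) := by
  have a := spl_add h.spl z.lam
  rw [sz, mul_add, add_mul, bn_M g h hx, ← mul_assoc, ← mul_assoc, mul_sp (bn_smp g h hx),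
    mul_assoc _ (pe o), ← a, mul_pe a, mul_smul_comm, smul_mul_assoc, smul_mul_assoc]

theorem Vz_ker (g : Good A l z) (h : Adm A o z y t) (hy : y ∈ (A.e i).source) {v : Fin n → ℂ}
    (hv : Vz A z y t i (A.e i y) *ᵥ v = 0) : val A z y i *ᵥ v = t i • v := by
  rw [Vz_mem hy] at hv
  have e1 := UU_ker (h.nrz g hy) hv
  rw [bz_val hy, smul_mulVec, mul_smul] at e1
  exact smul_right_injective _ (nf_ne hy) e1

theorem inj_det {X : Mn n} (h : X.det ≠ 0) {v : Fin n → ℂ} (hv : X *ᵥ v = 0) : v = 0 :=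
  eq_zero_of_mulVec_eq_zero h hv

theorem eig_pe {R : Mn n} (h : R * pe o = pe o * R) (hs : Smp R.charpoly (R o o)) {σ : Mn n}
    (hσ : σ.det ≠ 0) {v : Fin n → ℂ} (hv : (σ * R * σ⁻¹) *ᵥ (σ *ᵥ v) = R o o • (σ *ᵥ v)) :
    pe o *ᵥ v = v := by
  rw [mulVec_mulVec, nonsing_inv_mul_cancel_right _ _ hσ.isUnit, ← mulVec_mulVec,
    ← mulVec_smul, ← sub_eq_zero, ← mulVec_sub] at hv
  rw [← sp_pe h hs, sp_mulVec hs (sub_eq_zero.1 (inj_det hσ hv))]

theorem pe_vec (v : Fin n → ℂ) : pe o *ᵥ v = v o • Pi.single o 1 := by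
  ext a
  by_cases e : a = o
  · simp [pe, e, mulVec, dotProduct, single_apply]
  · simp [pe, e, mulVec, dotProduct, Ne.symm e]

theorem col_zero {X : Mn n} (h : X *ᵥ Pi.single o 1 = 0) : X * pe o = 0 := by
  ext a b
  have := congrFun h a
  by_cases e : b = o
  · simpa [pe, e] using this
  · simp [pe, e]

/-- the new frame is a frame -/
theorem sz_det (g : Good A l z) (h : Adm A o z y t) (hx : z.x ∈ (A.e i).source)
    (h0 : sp (bn A z y t i (A.e i z.x)) ((z.R + z.lam • mu o) o o) * τ₀ * pe o ≠ 0) :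
    (sz A z y t o i τ₀).det ≠ 0 := by
  have s := bn_smp g h hx
  have s' := smp_add h.spl h.nr
  have a : sp (bn A z y t i (A.e i z.x)) ((z.R + z.lam • mu o) o o) *
      (Vz A z y t i (A.e i z.x) * z.σ i * (1 - pe o)) = 0 := by
    have := sp_right (Y := sp (bn A z y t i (A.e i z.x)) ((z.R + z.lam • mu o) o o) *
      (Vz A z y t i (A.e i z.x) * z.σ i * (1 - pe o))) s'
      (by rw [mul_assoc, ← bn_M g h hx, ← mul_assoc, sp_mul s, smul_mul_assoc])
    rw [← this, sp_pe (spl_add h.spl _) s', mul_assoc, mul_assoc _ (1 - pe o), co_pe, mul_zero,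
      mul_zero]
  intro d
  obtain ⟨v, v0, hv⟩ := exists_mulVec_eq_zero_iff.2 d
  have b := congrArg (sp (bn A z y t i (A.e i z.x)) ((z.R + z.lam • mu o) o o) *ᵥ ·) hv
  simp only [sz, mulVec_mulVec, mul_add, a, add_zero, ← mul_assoc, sp_sp s, mulVec_zero] at b
  rw [sz, add_mulVec, b, zero_add, ← mulVec_mulVec, ← mulVec_mulVec] at hv
  have c : (1 - pe o) *ᵥ v = 0 := by
    by_cases e : y = z.x
    · have k := Vz_ker g h (e ▸ hx) (by rwa [show A.e i y = A.e i z.x by rw [e]])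
      rw [val, if_pos e, h.pole e i (e ▸ hx)] at k
      rw [← eig_pe h.spl h.nr.smp (g.fr i hx) k, mulVec_mulVec, pe_co, zero_mulVec]
    · exact inj_det (g.fr i hx) (inj_det (Vz_ne g h (mem_off hx (Ne.symm e))) hv)
  rw [sub_mulVec, one_mulVec, sub_eq_zero, pe_vec] at c
  rw [← mulVec_mulVec, pe_vec, mulVec_smul, smul_eq_zero] at b
  rcases b with b | b
  · exact v0 (by rw [c, b, zero_smul])
  · exact h0 (col_zero b)

theorem ex_tau {P : Mn n} (h : P ≠ 0) (o : Fin n) : ∃ τ₀ : Mn n, P * τ₀ * pe o ≠ 0 := by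
  by_contra! k
  refine h (Matrix.ext fun a b => ?_)
  simpa [pe, mul_assoc] using congrFun (congrFun (k (single b o 1)) a) o

theorem tz_good (g : Good A l z) (h : Adm A o z y t) (hx : z.x ∈ (A.e i₀).source)
    (d : (sz A z y t o i₀ τ₀).det ≠ 0) : Good A l (tz A z y t o i₀ τ₀) where
  cc := gz_cc g h
  det _ _ _ hw := gz_det g h hw
  hol _ _ hw := (az_an g hw).differentiableAt.differentiableWithinAt
  tr i w hw := by
    change ((A.sg z.x z.x i w)⁻¹ • bn A z y t i w).trace = 0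
    rw [trace_smul, bn_tr g h hw, smul_zero]
  law _ _ _ hw e := ⟨_, az_law g h hw e⟩
  fr i hi := by
    change (gz A z y t i i₀ (A.e i z.x) * sz A z y t o i₀ τ₀).det ≠ 0
    rw [Matrix.det_mul]
    exact mul_ne_zero ((gz_cc g h).det_ne (mem_O hi hx)) d
  frc i j hi hj := by
    change gz A z y t i i₀ (A.e i z.x) * sz A z y t o i₀ τ₀ = gz A z y t i j (A.e i z.x) *
      (gz A z y t j i₀ (A.e j z.x) * sz A z y t o i₀ τ₀)
    rw [(gz_cc g h).mul i j i₀ _ (mem_O (x := z.x) hi hj) (mem_O hi hx), tr_e (x := z.x) hi,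
      mul_assoc]
  pole i hi := by
    have a := pole_tr (a := (tz A z y t o i₀ τ₀).a) (B := bn A z y t i₀ (A.e i₀ z.x)) (gz_cc g h)
      hi hx (lc_an (Good.cc_l g) (mem_O hi hx) z.lam)
      ((ev_O (mem_O hi hx) z.x).mono fun w hw => az_law g h hw.1 hw.2)
      ((lim_an (bn_an g (map_src hx) i₀)).congr' ((off_ev hx).mono fun w hw => by
        have := sg_ne hw
        rw [sg_mem hx] at this
        simp only [tz, sg_mem hx, smul_inv_smul₀ this]))
    convert a using 2
    simp only [tz]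
    rw [Matrix.mul_inv_rev, mul_assoc _ (sz A z y t o i₀ τ₀), ← bn_sz g h hx, ← mul_assoc,
      ← mul_assoc, mul_nonsing_inv_cancel_right _ _ d.isUnit]

theorem lim_uz (hy : y ∈ (A.e i).source) : Tendsto (fun w => (w - A.e i y) • uz A z y t i w)
    (𝓝[≠] (A.e i y)) (𝓝 (Vz A z y t i (A.e i y))) :=
  (lim_an (Vz_an _)).congr' ((off_ev hy).mono fun w hw => by rw [← sg_uz hw, sg_mem hy])

theorem tz_hk (g : Good A l z) (h : Adm A o z y t) (hx : z.x ∈ (A.e i₀).source) :
    Hk A o z (tz A z y t o i₀ τ₀) y t (uz A z y t) where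
  lam := rfl
  x := rfl
  hol _ _ hw := (uz_an hw).differentiableAt.differentiableWithinAt
  det _ _ hw := uz_det g h hw
  law _ _ _ hw e := gz_law g h hw e
  con _ _ hw e := uz_con g h hw e
  loc _ hy := ⟨_, lim_uz hy, fun _ hv => Vz_ker g h hy hv⟩
  spl := h.spl
  R := rfl
  fr i hi := by
    obtain ⟨c, c0, hc⟩ : ∃ c : ℂ, c ≠ 0 ∧ Tendsto (fun w => (w - A.e i z.x) ^ ex z.x y •
        uz A z y t i w) (𝓝[≠] (A.e i z.x)) (𝓝 (c • Vz A z y t i (A.e i z.x))) := by
      by_cases e : y = z.x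
      · refine ⟨1, one_ne_zero, ?_⟩
        rw [ex, if_pos e, one_smul, show A.e i z.x = A.e i y by rw [e]]
        simpa only [pow_one] using lim_uz (e ▸ hi)
      · have a := mem_off hi (Ne.symm e)
        refine ⟨_, inv_ne_zero (sg_ne a), ?_⟩
        simp only [ex, if_neg e, pow_zero, one_smul]
        exact lim_an (uz_an a)
    have hO := mem_O hi hx
    refine ⟨_, c * A.ox y y i i₀ (A.e i z.x), mul_ne_zero c0 ((A.cc_ox y).ne hO), hc, ?_⟩
    simp only [tz, sz]
    rw [g.frc i i₀ hi hx, smul_mul_assoc, ← mul_assoc, Vz_law g h hO, tr_e hi]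
    simp only [smul_mul_assoc, smul_smul, mul_assoc, add_mul, pe_co, co_co, mul_zero, zero_add]

end Vale.Agent.P275HE
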