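import Vale.Agent.P275MO.Props
import Vale.Agent.P275Z.RHF

/-!
# P275, block HE: elementary transformations, definitions
-/

set_option linter.unusedSectionVars false

open scoped Topology Matrix.Norms.Operator
open Set Filter Metric Matrix

noncomputable section

namespace Vale.Agent.P275HE

open Vale.Agent.P275GC Vale.Agent.P275MO
open Vale.Agent.P275NA (Fm Cy Mn)

variable {C : Type} [TopologicalSpace C] {n : ℕ}

/-- the projector onto the line `o` -/
def pe (o : Fin n) : Mn n := Matrix.single o o 1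

/-- the cocharacter `(1 - n, 1, .., 1)` -/
def mu (o : Fin n) : Mn n := 1 - (n : ℂ) • pe o

/-- residues have the eigenvector `o` with eigenvalue `(1 - n) κ z`, the other eigenvalues are
`κ z`, and `z` is the coordinate `j` of `η` -/
structure HTy (τ : Ty n) (o : Fin n) (j : Fin τ.m) (κ : ℝ) : Prop where
  ne : κ ≠ 0
  row : ∀ X : Mn n, (∀ a b, a ≠ o → X a b = 0) → X ∈ τ.H
  mem : mu o ∈ τ.q
  col : ∀ R ∈ τ.q, ∀ a, a ≠ o → R a o = 0
  eta : ∀ R ∈ τ.q, R o o = (1 - n) * (κ * τ.η R j)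
  chp : ∀ R ∈ τ.q, R.charpoly = (Polynomial.X - Polynomial.C (R o o)) *
    (Polynomial.X - Polynomial.C (κ * τ.η R j)) ^ (n - 1)

open Classical in
/-- the residue at the pole, the Higgs field at the other points -/
def val (A : At C) (z : Dat C A.N n) (y : C) (i : Fin A.N) : Mn n :=
  if y = z.x then z.σ i * z.R * (z.σ i)⁻¹ else z.a i (A.e i y)

open Classical in
/-- the order of the pole at `x` of a transformation at `y` -/
def ex (x y : C) : ℕ := if y = x then 1 else 0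

/-- `u : z → z'` is the elementary transformation at `y` along the eigenline with eigenvalue `t`:
`n` steps along the line, then the twist by `O(-y)`. Used for `y = z.x` or `z.lam = 0`. -/
structure Hk (A : At C) (o : Fin n) (z z' : Dat C A.N n) (y : C) (t : Fin A.N → ℂ)
    (u : Fm A (Mn n)) : Prop where
  lam : z'.lam = z.lam
  x : z'.x = z.x
  hol : ∀ i, DifferentiableOn ℂ (u i) (off A y i)
  det : ∀ i, ∀ w ∈ off A y i, (u i w).det = 1
  law : ∀ i j, ∀ w ∈ A.O i j, (A.e i).symm w ≠ y →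
    u i w * z.g i j w = z'.g i j w * u j (A.tr i j w)
  con : ∀ i, ∀ w ∈ off A z.x i, (A.e i).symm w ≠ y →
    z.lam • deriv (u i) w + z'.a i w * u i w = u i w * z.a i w
  loc : ∀ i, y ∈ (A.e i).source → ∃ U : Mn n,
    Tendsto (fun w => (w - A.e i y) • u i w) (𝓝[≠] (A.e i y)) (𝓝 U) ∧
      ∀ v, U *ᵥ v = 0 → val A z y i *ᵥ v = t i • v
  spl : z.R * pe o = pe o * z.R
  R : z'.R = z.R + z.lam • mu o
  fr : ∀ i, z.x ∈ (A.e i).source → ∃ (U : Mn n) (c : ℂ), c ≠ 0 ∧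
    Tendsto (fun w => (w - A.e i z.x) ^ ex z.x y • u i w) (𝓝[≠] (A.e i z.x)) (𝓝 U) ∧
      U * z.σ i * (1 - pe o) = c • (z'.σ i * (1 - pe o))

variable {A : At C} {l : Cy A ℂ} {τ : Ty n}

/-- the relation on the moduli space -/
def HkM (o : Fin n) (m : Mod A l τ) (y : C) (t : Fin A.N → ℂ) (m' : Mod A l τ) : Prop :=
  ∃ z z' : Ob A l τ, z.pt = m ∧ z'.pt = m' ∧ ∃ (r : ℝ) (h1 : 1 < r) (h2 : r ≤ A.R)
    (u : Fm A (Mn n)), Good (A.res r h1 h2) l z.1 ∧ Good (A.res r h1 h2) l z'.1 ∧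
      Hk (A.res r h1 h2) o z.1 z'.1 y t u

open Classical in
/-- the elementary transformation at the point `(y, t)` of the spectral curve -/
def psi (o : Fin n) (y : C) (t : Fin A.N → ℂ) (m : Mod A l τ) : Mod A l τ :=
  if h : ∃ m', HkM o m y t m' then h.choose else m

/-- the elementary transformation at the pole -/
def phi (o : Fin n) (m : Mod A l τ) : Mod A l τ := psi o m.x (fun _ => m.rep.1.R o o) m

/-- `λ` is real, `z` is not -/
def Om (A : At C) (l : Cy A ℂ) (τ : Ty n) (j : Fin τ.m) : Set (Mod A l τ) :=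
  {m | m.lam.im = 0 ∧ (m.η j).im ≠ 0}

/-- the fibre of the Hitchin map through `m₀` -/
def Fb (m₀ : Mod A l τ) : Set (Mod A l τ) :=
  {m | m.lam = 0 ∧ m.x = m₀.x ∧ m.η = m₀.η ∧ ∀ i w, ‖w‖ < 1 → (A.e i).symm w ≠ m₀.x →
    (m.rep.1.a i w).charpoly = (m₀.rep.1.a i w).charpoly}

variable (A l)

/-- no invariant subbundles, so stability is automatic -/
def IRR (τ : Ty n) (j : Fin τ.m) : Prop := ∀ z : Dat C A.N n, Good A l z → z.R ∈ τ.q →
  z.lam.im = 0 → (τ.η z.R j).im ≠ 0 → ∀ (k : ℕ) S, 0 < k → k < n → P275NA.Sub A z.g k S →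
    ¬InvC A z S

/-- the transformation at the pole is a continuous self map of `Om` -/
structure PHI (τ : Ty n) (o : Fin n) (j : Fin τ.m) (κ : ℝ) : Prop where
  rel : ∀ m ∈ Om A l τ j, ∀ m', HkM o m m.x (fun _ => m.rep.1.R o o) m' ↔ m' = phi o m
  lam : ∀ m : Mod A l τ, (phi o m).lam = m.lam
  x : ∀ m : Mod A l τ, (phi o m).x = m.x
  η : ∀ m ∈ Om A l τ j, (phi o m).η = m.η + m.lam • τ.η (mu o)
  one : κ * τ.η (mu o) j = 1
  maps : MapsTo (phi o) (Om A l τ j) (Om A l τ j)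
  cont : ContinuousOn (phi o) (Om A l τ j)
  fib : ∀ m ∈ Om A l τ j, m.lam = 0 → phi o m ∈ Fb m

/-- at `λ = 1` the canonical flat frames correspond -/
def OFF (τ : Ty n) (o : Fin n) (j : Fin τ.m) : Prop := ∀ (r : ℝ) (h1 : 1 < r) (h2 : r ≤ A.R)
  (z z' : Dat C A.N n) (u : Fm A (Mn n)), Good (A.res r h1 h2) l z → Good (A.res r h1 h2) l z' →
  z.lam = 1 → z.R ∈ τ.q → (τ.η z.R j).im ≠ 0 →
  Hk (A.res r h1 h2) o z z' z.x (fun _ => z.R o o) u →
  ∃ a c : ℂ, a ≠ 0 ∧ c ≠ 0 ∧ P275Z.Off A z z' (a • pe o + c • (1 - pe o))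

/-- the `n`-th power is homotopic to the identity on the fibres of the Hitchin map -/
def HOT (τ : Ty n) (o : Fin n) (j : Fin τ.m) : Prop := ∀ m₀ ∈ Om A l τ j, m₀.lam = 0 →
  ∃ f : C(Fb m₀, Fb m₀), (∀ m, (f m).1 = (phi o)^[n] m.1) ∧
    f.Homotopic (ContinuousMap.id _)

/-- the transformation in families -/
def FAM (τ : Ty n) (o : Fin n) (j : Fin τ.m) : Prop := ∀ (T : Type) [TopologicalSpace T]
  (F : T → Ob A l τ) (t : T), FamAt A l (fun s => (F s).1) t → (∀ s, (F s).pt ∈ Om A l τ j) →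
  ∃ (r : ℝ) (h1 : 1 < r) (h2 : r ≤ A.R), ∃ V ∈ 𝓝 t, ∃ (h : T → Mn n) (F' : T → Ob A l τ)
    (u : T → Fm A (Mn n)), FamOn (A.res r h1 h2) l (fun s => (F s).1) V ∧
    FamOn (A.res r h1 h2) l (fun s => (F' s).1) V ∧ ContinuousOn h V ∧
    (∀ i, ContinuousOn (fun p : T × ℂ => u p.1 i p.2)
      {p | p.1 ∈ V ∧ p.2 ∈ off (A.res r h1 h2) (F p.1).1.x i}) ∧
    ∀ s ∈ V, h s ∈ τ.H ∧ (h s).det = 1 ∧ (F' s).pt = phi o (F s).pt ∧
      Hk (A.res r h1 h2) o ((F s).1.act (h s)) (F' s).1 (F s).1.x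
        (fun _ => (F s).1.R o o) (u s)

end Vale.Agent.P275HE
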