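import Vale.Agent.P275HE.Uni
import Vale.Agent.P275MB.Gau

/-!
# P275, block HE: the elementary transformation in families
-/

set_option linter.unusedSectionVars false

open scoped Topology Matrix.Norms.Operator
open Set Filter Metric Matrix

noncomputable section

namespace Vale.Agent.P275HE

open Vale.Agent.P275GC Vale.Agent.P275GC.At Vale.Agent.P275MO Vale.Agent.P275MB
open Vale.Agent.P275NA (Fm Cy Mn)

variable {C : Type} [TopologicalSpace C] {n : ℕ} {A : At C} {l : Cy A ℂ} {i j i₀ : Fin A.N}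
  {o : Fin n} {T : Type} [TopologicalSpace T] {F : T → Dat C A.N n} {V : Set T} {y : T → C}
  {t : T → Fin A.N → ℂ} {τ₀ : Mn n} {r : ℝ}

/-- the charts which contain the point do not depend on the parameter -/
def Cm (A : At C) (y : T → C) (V : Set T) : Prop :=
  ∀ i, (∀ s ∈ V, y s ∈ (A.e i).source) ∨ ∀ s ∈ V, y s ∉ (A.e i).source

theorem ex_rad (A : At C) (p q : C) (h : 1 < r) :
    ∃ r', 1 < r' ∧ r' < r ∧ (∀ i, ‖A.e i p‖ ≠ r') ∧ ∀ i, ‖A.e i q‖ ≠ r' := by
  obtain ⟨r', a, b⟩ := (Ioo_infinite h).exists_notMem_finite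
    ((finite_range fun i => ‖A.e i p‖).union (finite_range fun i => ‖A.e i q‖))
  exact ⟨r', a.1, a.2, fun i e => b (Or.inl ⟨i, e⟩), fun i e => b (Or.inr ⟨i, e⟩)⟩

theorem cm_ev [T2Space C] {p : C} (h1 : 1 < r) (h2 : r < A.R) (h : ∀ i, ‖A.e i p‖ ≠ r) :
    ∀ᶠ q in 𝓝 p, ∀ i : Fin A.N,
      q ∈ ((A.res r h1 h2.le).e i).source ↔ p ∈ ((A.res r h1 h2.le).e i).source := by
  refine eventually_all.2 fun i => ?_
  by_cases e : p ∈ ((A.res r h1 h2.le).e i).source
  · exact eventually_of_mem ((OpenPartialHomeomorph.open_source _).mem_nhds e) fun q a =>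
      iff_of_true a e
  · have k : IsCompact ((A.e i).symm '' closedBall 0 r) :=
      (isCompact_closedBall 0 r).image_of_continuousOn
        ((cont_symm (A := A) i).mono (closedBall_subset_ball h2))
    refine eventually_of_mem (k.isClosed.isOpen_compl.mem_nhds ?_) fun q a => iff_of_false
      (fun b => a ⟨_, ball_subset_closedBall b.2, (A.e i).left_inv b.1⟩) e
    rintro ⟨w, a, rfl⟩
    have b := closedBall_subset_ball h2 a
    refine e (src_res.2 ⟨map_tgt b, mem_ball_zero_iff.2 (lt_of_le_of_ne ?_ (h i))⟩)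
    rw [rinv b]
    exact mem_closedBall_zero_iff.1 a

theorem cm_of {p : C} (h : ∀ s ∈ V, ∀ i, y s ∈ (A.e i).source ↔ p ∈ (A.e i).source) : Cm A y V :=
  fun i => (em (p ∈ (A.e i).source)).imp (fun a s b => (h s b i).2 a) fun a s b c => a ((h s b i).1 c)

theorem c_e (cy : ContinuousOn y V) (h : ∀ s ∈ V, y s ∈ (A.e i).source) :
    ContinuousOn (fun s => A.e i (y s)) V := (A.e i).continuousOn.comp cy h

theorem c_sg (cy : ContinuousOn y V) (my : Cm A y V) (i : Fin A.N) :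
    ContinuousOn (fun p : T × ℂ => A.sg (y p.1) (y p.1) i p.2) (V ×ˢ univ) := by
  rcases my i with h | h
  · exact (continuousOn_snd.sub (on_fst (c_e cy h) _)).congr fun p a => by
      rw [sg_mem (h _ a.1)]; rfl
  · exact continuousOn_const.congr fun p a => by rw [sg_not (h _ a.1)]

theorem c_sec {X : Type} [TopologicalSpace X] {f : T → ℂ → X} {D : Set ℂ} {W : Set T} {c : T → ℂ}
    (h : ContinuousOn (fun p : T × ℂ => f p.1 p.2) (V ×ˢ D)) (hc : ContinuousOn c W)
    (m : ∀ s ∈ W, s ∈ V ∧ c s ∈ D) : ContinuousOn (fun s => f s (c s)) W :=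
  h.comp (continuousOn_id.prodMk hc) m

/-- families of objects and admissible points -/
structure HF (A : At C) (l : Cy A ℂ) (o : Fin n) (F : T → Dat C A.N n) (V : Set T) (y : T → C)
    (t : T → Fin A.N → ℂ) : Prop where
  f : FamOn A l F V
  adm : ∀ s ∈ V, Adm A o (F s) (y s) (t s)
  mx : Cm A (fun s => (F s).x) V
  my : Cm A y V
  cy : ContinuousOn y V
  ct : ∀ i, ContinuousOn (fun s => nf A (F s).x (y s) i * t s i)
    {s | s ∈ V ∧ y s ∈ (A.e i).source}

theorem HF.sub (h : HF A l o F V y t) {W : Set T} (m : W ⊆ V) : HF A l o F W y t :=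
  ⟨FamOn.sub h.f m, fun s a => h.adm s (m a),
    fun i => (h.mx i).imp (fun b s a => b s (m a)) fun b s a => b s (m a),
    fun i => (h.my i).imp (fun b s a => b s (m a)) fun b s a => b s (m a), h.cy.mono m,
    fun i => (h.ct i).mono fun _ a => ⟨m a.1, a.2⟩⟩

variable [T2Space C]

theorem HF.bz (h : HF A l o F V y t) (i : Fin A.N) :
    ContinuousOn (fun p : T × ℂ => bz A (F p.1) i p.2) (V ×ˢ ball 0 A.R) := by
  rcases h.mx i with e | e
  · exact ((FamOn.fill h.f i).mono fun p a => ⟨⟨a.1, e _ a.1⟩, a.2⟩).congr fun p a => by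
      rw [P275HE.bz, if_pos (e _ a.1)]
  · exact ((h.f.a i).mono fun p a => ⟨a.1, off_of_not (e _ a.1) a.2⟩).congr fun p a => by
      rw [P275HE.bz, if_neg (e _ a.1)]

theorem HF.lf (h : HF A l o F V y t) (e : ∀ s ∈ V, y s ∈ (A.e i).source) :
    LF V (ball 0 A.R) (fun s => (F s).lam) (fun s => A.e i (y s))
      (fun s => nf A (F s).x (y s) i * t s i) fun s => P275HE.bz A (F s) i :=
  ⟨isOpen_ball, h.f.lam, c_e h.cy e, (h.ct i).mono fun s a => ⟨a, e s a⟩,
    fun s a => map_src (e s a), fun s a => bz_diff (h.f.good s a) i, h.bz i,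
    fun s a => (h.adm s a).nrz (h.f.good s a) (e s a)⟩

theorem HF.Vz (h : HF A l o F V y t) (i : Fin A.N) :
    ContinuousOn (fun p : T × ℂ => Vz A (F p.1) (y p.1) (t p.1) i p.2) (V ×ˢ univ) := by
  rcases h.my i with e | e
  · exact ((h.lf e).UU n).congr fun p a => by rw [Vz_mem (e _ a.1)]; rfl
  · exact continuousOn_const.congr fun p a => by rw [Vz_not (e _ a.1)]

theorem HF.bn (h : HF A l o F V y t) (i : Fin A.N) :
    ContinuousOn (fun p : T × ℂ => bn A (F p.1) (y p.1) (t p.1) i p.2) (V ×ˢ ball 0 A.R) := by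
  rcases h.my i with e | e
  · exact (((h.lf e).bb n).add ((on_fst h.f.lam _).smul continuousOn_const)).congr fun p a => by
      rw [P275HE.bn, if_pos (e _ a.1)]; rfl
  · exact (h.bz i).congr fun p a => by rw [P275HE.bn, if_neg (e _ a.1)]

theorem HF.uz (h : HF A l o F V y t) (i : Fin A.N) :
    ContinuousOn (fun p : T × ℂ => uz A (F p.1) (y p.1) (t p.1) i p.2)
      {p | p.1 ∈ V ∧ p.2 ∈ off A (y p.1) i} :=
  (((c_sg h.cy h.my i).mono fun _ a => ⟨a.1, trivial⟩).inv₀ fun _ a => sg_ne a.2).smul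
    ((h.Vz i).mono fun _ a => ⟨a.1, trivial⟩)

theorem HF.gz (h : HF A l o F V y t) (i j : Fin A.N) :
    ContinuousOn (fun p : T × ℂ => gz A (F p.1) (y p.1) (t p.1) i j p.2) (V ×ˢ A.O i j) := by
  have a : ContinuousOn (fun p : T × ℂ => P275HE.gz A (F p.1) (y p.1) (t p.1) i j p.2)
      {p | p ∈ V ×ˢ A.O i j ∧ (A.e i).symm p.2 ≠ y p.1} := by
    refine ((((h.uz i).mono fun p a => ⟨a.1.1, a.1.2.1, a.2⟩).mul
      ((h.f.g i j).mono fun p a => a.1)).mul (co_inv ((h.uz j).comp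
        (continuousOn_fst.prodMk ((A.hol i j).continuousOn.comp continuousOn_snd fun p a => a.1.2))
        fun p a => ⟨a.1.1, off_tr a.1.2 a.2⟩) fun p a => uz_ne (h.f.good _ a.1.1) (h.adm _ a.1.1)
          (off_tr a.1.2 a.2))).congr fun p a => ?_
    exact gz_off (h.f.good _ a.1.1) (h.adm _ a.1.1) a.1.2 a.2
  rcases h.my i with e | e
  · exact cont_ext (O_open i j) (fun s b => (gz_cc (h.f.good s b) (h.adm s b)).hol i j)
      (c_e h.cy e) (a.mono fun p b => ⟨b.1, (ne_iff (e _ b.1.1) b.1.2.1).2 b.2⟩)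
  · exact a.mono fun p b => ⟨b, (off_of_not (e _ b.1) b.2.1).2⟩

theorem c_oo (o : Fin n) : Continuous fun R : Mn n => R o o :=
  (continuous_apply o).comp (continuous_apply o)

theorem HF.R (h : HF A l o F V y t) : ContinuousOn (fun s => (F s).R + (F s).lam • mu o) V :=
  h.f.R.add (h.f.lam.smul continuousOn_const)

theorem HF.sp (h : HF A l o F V y t) (e : ∀ s ∈ V, (F s).x ∈ (A.e i).source) :
    ContinuousOn (fun s => sp (P275HE.bn A (F s) (y s) (t s) i (A.e i (F s).x))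
      (((F s).R + (F s).lam • mu o) o o)) V := fun s a =>
  tendsto_sp (bn_smp (h.f.good s a) (h.adm s a) (e s a))
    (c_sec (h.bn i) (c_e h.f.x e) (fun s a => ⟨a, map_src (e s a)⟩) s a)
    ((c_oo o).comp_continuousOn h.R s a)

theorem HF.fam (h : HF A l o F V y t) (e : ∀ s ∈ V, (F s).x ∈ (A.e i₀).source)
    (d : ∀ s ∈ V, (sz A (F s) (y s) (t s) o i₀ τ₀).det ≠ 0) :
    FamOn A l (fun s => tz A (F s) (y s) (t s) o i₀ τ₀) V where
  good s a := tz_good (h.f.good s a) (h.adm s a) (e s a) (d s a)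
  lam := h.f.lam
  x := h.f.x
  R := h.R
  g := h.gz
  a i := (((c_sg h.f.x h.mx i).mono fun _ a => ⟨a.1, trivial⟩).inv₀ fun _ a => sg_ne a.2).smul
    ((h.bn i).mono fun _ a => ⟨a.1, a.2.1⟩)
  σ i := (c_sec (h.gz i i₀) (FamOn.p h.f i) fun s a => ⟨a.1, mem_O a.2 (e s a.1)⟩).mul
    (((((h.sp e).mul continuousOn_const).mul continuousOn_const).add
      (((c_sec (h.Vz i₀) (c_e h.f.x e) fun _ a => ⟨a, mem_univ _⟩).mul
        ((h.f.σ i₀).mono fun s a => ⟨a, e s a⟩)).mul continuousOn_const)).mono fun _ a => a.1)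

/-- **the transformation in families** -/
theorem HF.ex (h : HF A l o F V y t) {s₀ : T} (hV : V ∈ 𝓝 s₀) : ∃ W ∈ 𝓝 s₀, W ⊆ V ∧
    ∃ F' : T → Dat C A.N n, FamOn A l F' W ∧
      ∀ s ∈ W, Hk A o (F s) (F' s) (y s) (t s) (P275HE.uz A (F s) (y s) (t s)) := by
  have h0 := mem_of_mem_nhds hV
  obtain ⟨i, hi, -⟩ := A.cov (F s₀).x
  have e := (h.mx i).resolve_right fun a => a s₀ h0 hi
  obtain ⟨τ₀, h1⟩ := ex_tau (sp_ne (bn_smp (h.f.good s₀ h0) (h.adm s₀ h0) hi)) o
  have h2 := (((((h.sp e).mul continuousOn_const).mul continuousOn_const).continuousAt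
    hV).eventually_ne h1).and hV
  refine ⟨_, h2, fun _ a => a.2, _, (h.sub fun _ a => a.2).fam (fun s a => e s a.2)
    (fun s a => sz_det (h.f.good s a.2) (h.adm s a.2) (e s a.2) a.1), fun s a =>
    tz_hk (h.f.good s a.2) (h.adm s a.2) (e s a.2)⟩

/-- the kernel at the pole -/
theorem Vz_ker_iff {z : Dat C A.N n} {t : Fin A.N → ℂ} (g : Good A l z) (h : Adm A o z z.x t)
    (hx : z.x ∈ (A.e i).source) (v : Fin n → ℂ) : Vz A z z.x t i (A.e i z.x) *ᵥ v = 0 ↔
      ∃ c : ℂ, v = c • (z.σ i *ᵥ Pi.single o 1) := by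
  have a : ∀ v, Vz A z z.x t i (A.e i z.x) *ᵥ v = 0 →
      ∃ c : ℂ, v = c • (z.σ i *ᵥ Pi.single o 1) := fun v hv => by
    have k := Vz_ker g h hx hv
    have e : z.σ i *ᵥ ((z.σ i)⁻¹ *ᵥ v) = v := by
      rw [mulVec_mulVec, mul_nonsing_inv _ (g.fr i hx).isUnit, one_mulVec]
    rw [val, if_pos rfl, h.pole rfl i hx, ← e] at k
    have := eig_pe h.spl h.nr.smp (g.fr i hx) k
    rw [pe_vec] at this
    exact ⟨_, by rw [← mulVec_smul, this, e]⟩
  refine ⟨a v, ?_⟩
  rintro ⟨c, rfl⟩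
  obtain ⟨v, v0, hv⟩ := exists_mulVec_eq_zero_iff.2 (show (Vz A z z.x t i (A.e i z.x)).det = 0 by
    simp only [Vz_det g h, sg_mem hx, sub_self, zero_pow o.pos.ne'])
  obtain ⟨d, rfl⟩ := a v hv
  rw [mulVec_smul, smul_eq_zero] at hv
  rw [mulVec_smul, hv.resolve_left fun e => v0 (by rw [e, zero_smul]), smul_zero]

end Vale.Agent.P275HE
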