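import Vale.Agent.P275HE.Roots
import Mathlib.Analysis.Complex.RemovableSingularity

/-!
# P275, block HE: the simple roots near a point
-/

open scoped Topology
open Set Filter Polynomial

noncomputable section

namespace Vale.Agent.P275HE

variable {n : ℕ} {p : ℂ → ℂ[X]} {z : ℂ}

theorem An.tendsto (h : An n p z) {w : ℕ → ℂ} (hw : Tendsto w atTop (𝓝 z)) (j : ℕ) :
    Tendsto (fun k => (p (w k)).coeff j) atTop (𝓝 ((p z).coeff j)) :=
  (h.2 j).continuousAt.tendsto.comp hw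

theorem Smp.mem {q : ℂ[X]} (hq : Mon n q) {t : ℂ} (h : Smp q t) : t ∈ q.roots.toFinset :=
  Multiset.mem_toFinset.2 ((mem_roots hq.1.ne_zero).2 h.1)

theorem Mon.fin {q : ℂ[X]} (hq : Mon n q) : {t | Smp q t}.Finite :=
  q.roots.toFinset.finite_toSet.subset fun _ h => Smp.mem hq h

/-- where the number of distinct roots does not jump, no new simple roots appear -/
theorem An.good (h : An n p z) (hg : ∀ᶠ w in 𝓝 z, nd (p w) ≤ nd (p z)) : ∃ τ : ℂ → ℂ → ℂ,
    (∀ t, Smp (p z) t → AnalyticAt ℂ (τ t) z ∧ τ t z = t) ∧ ∀ᶠ w in 𝓝 z,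
      (∀ t, Smp (p z) t → Smp (p w) (τ t w)) ∧ (∀ s, Smp (p w) s → ∃ t, Smp (p z) t ∧ τ t w = s) ∧
      InjOn (fun t => τ t w) {t | Smp (p z) t} := by
  classical
  choose! τ h1 h2 h3 h4 using fun t => h.ift (t := t)
  refine ⟨τ, fun t ht => ⟨h1 t ht, h2 t ht⟩, ?_⟩
  have f := h.mon.fin
  refine ((eventually_all_finite f).2 h3).and (Eventually.and ?_ ?_)
  · by_contra hn
    obtain ⟨w, hw, hb⟩ := exists_seq_forall_of_frequently ((not_eventually.1 hn).and_eventually (h.1.and hg))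
    have hb1 : ∀ k, ∃ s, Smp (p (w k)) s ∧ ∀ t, Smp (p z) t → τ t (w k) ≠ s := fun k => by
      simpa using (hb k).1
    choose s hs hs' using hb1
    choose t ht using fun k => (hb k).2.1.enum
    have hi : ∀ k, ∃ i, t k i = s k ∧ ∀ j, t k j = s k → j = i := fun k =>
      (smp_enum _ _).1 (ht k ▸ hs k)
    choose i hi hi' using hi
    obtain ⟨φ, u, hφ, hu, e⟩ := lim_enum h.mon (fun k => (hb k).2.1) (h.tendsto hw) t ht
    obtain ⟨i0, h0⟩ : ∃ i0, ∃ᶠ k in atTop, i (φ k) = i0 := by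
      by_contra hc
      push Not at hc
      obtain ⟨k, hk⟩ := (eventually_all.2 hc).exists
      exact hk _ rfl
    have hu' := tendsto_pi_nhds.1 hu
    by_cases hsm : Smp (p z) (u i0)
    · have := ((hw.comp hφ.tendsto_atTop).prodMk_nhds (hu' i0)).eventually (h4 _ hsm)
      obtain ⟨k, a, b⟩ := (h0.and_eventually this).exists
      refine hs' (φ k) _ hsm ?_
      have c : t (φ k) i0 = s (φ k) := a ▸ hi _
      rw [← c]
      exact (b (by rw [c]; exact (hs _).1)).symm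
    · obtain ⟨j0, e0, hj0⟩ : ∃ j0, u j0 = u i0 ∧ j0 ≠ i0 := by
        by_contra hc
        push Not at hc
        exact hsm (e ▸ (smp_enum u _).2 ⟨i0, rfl, hc⟩)
      have hev : ∀ᶠ k in atTop, ∀ a b, u a ≠ u b → t (φ k) a ≠ t (φ k) b := by
        refine eventually_all.2 fun a => eventually_all.2 fun b => ?_
        by_cases hab : u a = u b
        · exact Eventually.of_forall fun _ h => absurd hab h
        · exact (((hu' a).sub (hu' b)).eventually_ne (sub_ne_zero.2 hab)).mono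
            fun k hk _ => sub_ne_zero.1 hk
      obtain ⟨k, a, b⟩ := (h0.and_eventually hev).exists
      have hle := (hb (φ k)).2.2
      rw [ht, e, nd_enum, nd_enum] at hle
      have hr : ∀ v, ∃ c, v ∈ Finset.univ.image u → u c = v ∧ c ≠ i0 := fun v => by
        by_cases hv : v = u i0
        · exact ⟨j0, fun _ => ⟨hv ▸ e0, hj0⟩⟩
        · by_cases hv' : v ∈ Finset.univ.image u
          · obtain ⟨c, -, hc⟩ := Finset.mem_image.1 hv'
            exact ⟨c, fun _ => ⟨hc, fun h => hv (by rw [← hc, h])⟩⟩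
          · exact ⟨j0, fun h => absurd h hv'⟩
      choose ρ hρ using hr
      have hc := Finset.card_le_card_of_injOn (s := Finset.univ.image u)
        (t := (Finset.univ.image (t (φ k))).erase (s (φ k))) (fun v => t (φ k) (ρ v))
        (fun v hv => Finset.mem_coe.2 (Finset.mem_erase.2
          ⟨fun h => (hρ v hv).2 ((hi' _ _ h).trans a), by simp⟩))
        (fun v hv v' hv' h => by_contra fun hne =>
          b _ _ (by rw [(hρ v hv).1, (hρ v' hv').1]; exact hne) h)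
      have hm : s (φ k) ∈ Finset.univ.image (t (φ k)) := Finset.mem_image.2 ⟨_, by simp, hi _⟩
      have := Finset.card_erase_lt_of_mem hm
      omega
  · have : ∀ᶠ w in 𝓝 z, ∀ t ∈ {t | Smp (p z) t}, ∀ t' ∈ {t | Smp (p z) t},
        τ t w = τ t' w → t = t' := by
      refine (eventually_all_finite f).2 fun t ht => (eventually_all_finite f).2 fun t' ht' => ?_
      by_cases e : t = t'
      · exact Eventually.of_forall fun _ _ => e
      · refine (((h1 t ht).continuousAt.sub (h1 t' ht').continuousAt).eventually_ne (y := 0)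
          (by rw [Pi.sub_apply, h2 t ht, h2 t' ht']; exact sub_ne_zero.2 e)).mono fun w a b => ?_
        exact absurd (sub_eq_zero.2 b) a
    exact this.mono fun w hw t ht t' ht' e => hw t ht t' ht' e

open Classical in
/-- the selected simple roots -/
def sel (q : ℂ[X]) (S : ℂ → Prop) : Finset ℂ := q.roots.toFinset.filter fun t => Smp q t ∧ S t

theorem mem_sel {q : ℂ[X]} (hq : Mon n q) {S : ℂ → Prop} {t : ℂ} :
    t ∈ sel q S ↔ Smp q t ∧ S t := by
  classical
  rw [sel, Finset.mem_filter]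
  exact ⟨fun h => h.2, fun h => ⟨h.1.mem hq, h⟩⟩

theorem sel_le (q : ℂ[X]) (S : ℂ → Prop) : (sel q S).val ≤ q.roots := by
  classical
  exact (Finset.val_le_iff.2 (Finset.filter_subset _ _)).trans (Multiset.dedup_le _)

/-- power sums of the selected roots -/
def ps (p : ℂ → ℂ[X]) (S : ℂ → ℂ → Prop) (k : ℕ) (w : ℂ) : ℂ := ∑ t ∈ sel (p w) (S w), t ^ k

/-- the selection is locally constant -/
def LC (p : ℂ → ℂ[X]) (S : ℂ → ℂ → Prop) (z : ℂ) : Prop := ∀ t, Smp (p z) t →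
  ∀ᶠ v : ℂ × ℂ in 𝓝 (z, t), Smp (p v.1) v.2 → (S v.1 v.2 ↔ S z t)

variable {S : ℂ → ℂ → Prop}

theorem LC.ev (hS : LC p S z) {t : ℂ} (ht : Smp (p z) t) {τ : ℂ → ℂ}
    (h1 : AnalyticAt ℂ τ z) (h2 : τ z = t) :
    ∀ᶠ w in 𝓝 z, Smp (p w) (τ w) → (S w (τ w) ↔ S z t) :=
  (show Tendsto (fun w => (w, τ w)) (𝓝 z) (𝓝 (z, t)) from
    tendsto_id.prodMk_nhds (h2 ▸ h1.continuousAt.tendsto)).eventually (hS t ht)

theorem An.an_ps (h : An n p z) (hg : ∀ᶠ w in 𝓝 z, nd (p w) ≤ nd (p z)) (hS : LC p S z) (k : ℕ) :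
    AnalyticAt ℂ (ps p S k) z := by
  classical
  obtain ⟨τ, h1, h2⟩ := h.good hg
  have h3 : ∀ᶠ w in 𝓝 z, ∀ t ∈ {t | Smp (p z) t}, Smp (p w) (τ t w) → (S w (τ t w) ↔ S z t) :=
    (eventually_all_finite h.mon.fin).2 fun t ht => hS.ev ht (h1 t ht).1 (h1 t ht).2
  have e : (fun w => ∑ t ∈ sel (p z) (S z), τ t w ^ k) =ᶠ[𝓝 z] ps p S k := by
    filter_upwards [h2, h3, h.1] with w a b c
    refine Finset.sum_bij (fun t _ => τ t w) (fun t ht => ?_) (fun t ht t' ht' e => ?_)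
      (fun s hs => ?_) fun _ _ => rfl
    · obtain ⟨x, y⟩ := (mem_sel h.mon).1 ht
      exact (mem_sel c).2 ⟨a.1 t x, (b t x (a.1 t x)).2 y⟩
    · exact a.2.2 ((mem_sel h.mon).1 ht).1 ((mem_sel h.mon).1 ht').1 e
    · obtain ⟨x, y⟩ := (mem_sel c).1 hs
      obtain ⟨t, ht, rfl⟩ := a.2.1 s x
      exact ⟨t, (mem_sel h.mon).2 ⟨ht, (b t ht x).1 y⟩, rfl⟩
  exact (Finset.analyticAt_fun_sum _ fun t ht =>
    (h1 t ((mem_sel h.mon).1 ht).1).1.fun_pow k).congr e

/-- the limit of a function along punctured neighbourhoods -/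
def xt (f : ℂ → ℂ) (z : ℂ) : ℂ := limUnder (𝓝[≠] z) f

theorem rem {f : ℂ → ℂ} (h1 : ∀ᶠ w in 𝓝[≠] z, AnalyticAt ℂ f w) {M : ℝ}
    (h2 : ∀ᶠ w in 𝓝[≠] z, ‖f w‖ ≤ M) : AnalyticAt ℂ (xt f) z ∧ f =ᶠ[𝓝[≠] z] xt f := by
  have e : f =ᶠ[𝓝[≠] z] xt f := h1.mono fun w hw =>
    (hw.continuousAt.tendsto.mono_left nhdsWithin_le_nhds).limUnder_eq.symm
  have t := Complex.tendsto_limUnder_of_differentiable_on_punctured_nhds_of_bounded_under
    (h1.mono fun w hw => hw.differentiableAt)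
    ⟨M + ‖f z‖, h2.mono fun w hw => (norm_sub_le _ _).trans (by gcongr)⟩
  refine ⟨Complex.analyticAt_of_differentiable_on_punctured_nhds_of_continuousAt ?_ ?_, e⟩
  · have o : IsOpen ({z}ᶜ : Set ℂ) := isOpen_compl_singleton
    filter_upwards [h1, eventually_eventually_nhdsWithin.2 e, self_mem_nhdsWithin] with w a b c
    rw [o.nhdsWithin_eq c] at b
    exact (a.congr b).differentiableAt
  · exact continuousAt_iff_punctured_nhds.2 (t.congr' e)

theorem An.bd (h : An n p z) : ∃ M : ℝ, 0 ≤ M ∧ ∀ᶠ w in 𝓝 z, ∀ t, (p w).eval t = 0 → ‖t‖ ≤ M := by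
  have : ∀ᶠ w in 𝓝 z, ∀ k ∈ Finset.range (n + 1), ‖(p w).coeff k‖ ≤ ‖(p z).coeff k‖ + 1 :=
    (eventually_all_finset _).2 fun k _ =>
      (h.2 k).continuousAt.norm.eventually (eventually_le_nhds (lt_add_one _))
  refine ⟨∑ k ∈ Finset.range (n + 1), (‖(p z).coeff k‖ + 1) + 1, by positivity, ?_⟩
  filter_upwards [this, h.1] with w a b t ht
  refine b.bound (fun k hk => ?_) ht
  have hk' := Finset.mem_range.2 (Nat.lt_succ_of_le hk)
  exact (a k hk').trans (Finset.single_le_sum (f := fun k => ‖(p z).coeff k‖ + 1)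
    (fun _ _ => by positivity) hk')

theorem card_sel {q : ℂ[X]} (hq : Mon n q) (S : ℂ → Prop) : (sel q S).card ≤ n :=
  (Multiset.card_le_card (sel_le q S)).trans (hq.2 ▸ card_roots' q)

/-- the power sums of the selected roots extend holomorphically -/
theorem An.xt_ps (h : An n p z) (hS : ∀ᶠ w in 𝓝[≠] z, LC p S w) (k : ℕ) :
    AnalyticAt ℂ (xt (ps p S k)) z ∧ ps p S k =ᶠ[𝓝[≠] z] xt (ps p S k) := by
  obtain ⟨r, hr⟩ := h.nd_const
  obtain ⟨M, hM, hb⟩ := h.bd
  refine rem ?_ (M := n * M ^ k) ?_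
  · have o : IsOpen ({z}ᶜ : Set ℂ) := isOpen_compl_singleton
    filter_upwards [hr, eventually_eventually_nhdsWithin.2 hr, self_mem_nhdsWithin,
      (h.ev.filter_mono nhdsWithin_le_nhds).and hS] with w a b c d
    rw [o.nhdsWithin_eq c] at b
    exact d.1.an_ps (b.mono fun x hx => by rw [hx, a]) d.2 k
  · filter_upwards [(h.1.and hb).filter_mono nhdsWithin_le_nhds] with w a
    refine (norm_sum_le _ _).trans ((Finset.sum_le_card_nsmul _ _ (M ^ k) fun t ht => ?_).trans ?_)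
    · rw [norm_pow]
      gcongr
      exact a.2 t ((mem_sel a.1).1 ht).1.1
    · rw [nsmul_eq_mul]
      gcongr
      exact card_sel a.1 _

theorem ps_zero (w : ℂ) : ps p S 0 w = (sel (p w) (S w)).card := by simp [ps]

/-- the number of selected roots is constant on a punctured neighbourhood -/
theorem An.xt_card (h : An n p z) (hS : ∀ᶠ w in 𝓝[≠] z, LC p S w) :
    ∀ᶠ w in 𝓝[≠] z, ((sel (p w) (S w)).card : ℂ) = xt (ps p S 0) z := by
  obtain ⟨h1, h2⟩ := h.xt_ps hS 0
  have t : Tendsto (fun w => ((sel (p w) (S w)).card : ℂ)) (𝓝[≠] z) (𝓝 (xt (ps p S 0) z)) :=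
    (h1.continuousAt.tendsto.mono_left nhdsWithin_le_nhds).congr'
      (h2.mono fun w hw => by rw [← hw, ps_zero])
  have f : ((fun k : ℕ => (k : ℂ)) '' Iic n \ {xt (ps p S 0) z}).Finite :=
    ((finite_Iic n).image _).sdiff
  filter_upwards [t.eventually (f.isClosed.isOpen_compl.mem_nhds fun h => h.2 rfl),
    h.1.filter_mono nhdsWithin_le_nhds] with w a b
  exact by_contra fun hn => a ⟨⟨_, card_sel b _, rfl⟩, hn⟩

theorem enum_ms (A : Multiset ℂ) {m : ℕ} (h : A.card = m) :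
    ∃ a : Fin m → ℂ, Finset.univ.val.map a = A := by
  induction A using Quotient.inductionOn with
  | h l =>
    obtain rfl : l.length = m := h
    exact ⟨l.get, by simp⟩

/-- limits of parts of the roots -/
theorem An.sub (h : An n p z) {T : ℂ → Multiset ℂ} {m : ℕ} {s : ℂ}
    (h1 : ∀ᶠ w in 𝓝[≠] z, T w ≤ (p w).roots ∧ (T w).card = m)
    (h2 : Tendsto (fun w => (T w).sum) (𝓝[≠] z) (𝓝 s)) :
    ∃ M ≤ (p z).roots, M.card = m ∧ M.sum = s := by
  obtain ⟨w, hw, hb⟩ := exists_seq_forall_of_frequently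
    (h1.and (h.1.filter_mono nhdsWithin_le_nhds)).frequently
  have hc : ∀ k, ((p (w k)).roots - T (w k)).card = n - m := fun k => by
    rw [Multiset.card_sub (hb k).1.1, (hb k).1.2, ← (hb k).2.2,
      splits_iff_card_roots.1 (IsAlgClosed.splits _)]
  choose a ha using fun k => enum_ms _ (hb k).1.2
  choose b hb' using fun k => enum_ms _ (hc k)
  have key : ∀ (u : Fin m ⊕ Fin (n - m) → ℂ), Finset.univ.val.map u =
      Finset.univ.val.map (u ∘ Sum.inl) + Finset.univ.val.map (u ∘ Sum.inr) := fun u => by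
    rw [← Finset.univ_disjSum_univ, Finset.val_disjSum, Multiset.disjSum, Multiset.map_add,
      Multiset.map_map, Multiset.map_map]
  have ht : ∀ k, p (w k) = ∏ i, (X - C (Sum.elim (a k) (b k) i)) := fun k => by
    rw [Finset.prod_eq_multiset_prod, ← Function.comp_def (fun a => X - C a) (Sum.elim _ _),
      ← Multiset.map_map, key, Sum.elim_comp_inl, Sum.elim_comp_inr, ha, hb',
      add_tsub_cancel_of_le (hb k).1.1]
    exact (IsAlgClosed.splits _).eq_prod_roots_of_monic (hb k).2.1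
  obtain ⟨φ, u, hφ, hu, e⟩ := lim_enum h.mon (fun k => (hb k).2)
    (h.tendsto (hw.mono_right nhdsWithin_le_nhds)) _ ht
  refine ⟨Finset.univ.val.map (u ∘ Sum.inl), ?_, by simp, ?_⟩
  · rw [e, roots_enum, key]
    exact Multiset.le_add_right _ _
  · refine tendsto_nhds_unique ?_ ((h2.comp hw).comp hφ.tendsto_atTop)
    have : Tendsto (fun k => ∑ i, a (φ k) i) atTop (𝓝 (∑ i, u (Sum.inl i))) :=
      tendsto_finsetSum _ fun i _ => tendsto_pi_nhds.1 hu (Sum.inl i)
    exact this.congr fun k => by simp only [Function.comp, ← ha]; rfl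

end Vale.Agent.P275HE
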