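import Vale.Agent.P275HE.Alg
import Vale.Agent.P275NA.Glob
import Mathlib.Analysis.Complex.RemovableSingularity
import Mathlib.Analysis.Complex.AbsMax

/-!
# P275, block HE: local theory of elementary transformations
-/

open scoped Topology Matrix.Norms.Operator
open Set Filter Metric Matrix

noncomputable section

namespace Vale.Agent.P275HE

open Vale.Agent.P275NA (Mn)
open Vale.Agent.P281Z.Hm (an_det an_inv)

variable {n k : ℕ} {lam y t : ℂ} {b U U' : ℂ → Mn n} {B : Mn n}

theorem ev_of_punct {F : Type} [TopologicalSpace F] [T2Space F] {f g : ℂ → F}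
    (hf : ContinuousAt f y) (hg : ContinuousAt g y) (h : ∀ᶠ w in 𝓝[≠] y, f w = g w) :
    ∀ᶠ w in 𝓝 y, f w = g w := by
  rw [← nhdsNE_sup_pure, eventually_sup]
  exact ⟨h, tendsto_nhds_unique_of_eventuallyEq (hf.tendsto.mono_left nhdsWithin_le_nhds)
    (hg.tendsto.mono_left nhdsWithin_le_nhds) h⟩

theorem cancel_det {X Y g : Mn n} (hg : g.det ≠ 0) (h : X * g = Y * g) : X = Y := by
  have u : IsUnit g.det := hg.isUnit
  rw [← mul_nonsing_inv_cancel_right g X u, h, mul_nonsing_inv_cancel_right g Y u]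

theorem an_dslope {F : Type} [NormedAddCommGroup F] [NormedSpace ℂ F] [CompleteSpace F]
    {f : ℂ → F} (h : AnalyticAt ℂ f y) : AnalyticAt ℂ (dslope f y) y := by
  obtain ⟨p, hp⟩ := h
  exact ⟨_, hp.has_fpower_series_dslope_fslope⟩

/-- one step -/
def u1 (y t : ℂ) (B : Mn n) (w : ℂ) : Mn n := (w - y) • sp B t + (1 - sp B t)

/-- the new operator after one step -/
def nb (lam y t : ℂ) (b : ℂ → Mn n) (w : ℂ) : Mn n :=
  sp (b y) t * b w * sp (b y) t + (w - y) • (sp (b y) t * b w * (1 - sp (b y) t)) +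
    (1 - sp (b y) t) * dslope b y w * sp (b y) t +
    (1 - sp (b y) t) * b w * (1 - sp (b y) t) - lam • sp (b y) t

theorem has_u1 (w : ℂ) : HasDerivAt (u1 y t B) (sp B t) w := by
  have := (((hasDerivAt_id w).sub_const y).smul_const (sp B t)).add_const (1 - sp B t)
  rw [one_smul] at this
  exact this

theorem u1_self : u1 y t B y = 1 - sp B t := by rw [u1, sub_self, zero_smul, zero_add]

theorem det_u1 (h : Smp B.charpoly t) (w : ℂ) : (u1 y t B w).det = w - y := by
  simpa [u1] using det_sp (Z := 0) h (w - y) (zero_mul _) (mul_zero _)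

theorem nb_mul (h : Smp (b y).charpoly t) (w : ℂ) :
    (lam * (w - y)) • sp (b y) t + nb lam y t b w * u1 y t (b y) w = u1 y t (b y) w * b w := by
  have e : b w = b y + (w - y) • dslope b y w := by rw [sub_smul_dslope]; abel
  rw [nb, u1, e]
  have p1 := sp_sp h
  have p2 := mul_sp h
  have p3 := sp_mul h
  generalize sp (b y) t = P at *
  generalize dslope b y w = D
  generalize w - y = s
  simp only [sub_mul, add_mul, mul_add, mul_sub, smul_mul_assoc, mul_smul_comm, one_mul,
    mul_one, mul_assoc, p1, p2, p3, smul_sub, smul_add]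
  module

theorem nb_self (h : Smp (b y).charpoly t) : nb lam y t b y =
    b y - lam • sp (b y) t + (1 - sp (b y) t) * dslope b y y * sp (b y) t := by
  rw [nb]
  have p1 := sp_sp h
  have p2 := mul_sp h
  have p3 := sp_mul h
  generalize sp (b y) t = P at *
  simp only [sub_mul, mul_sub, one_mul, mul_one, mul_assoc, p1, p2, p3, sub_self,
    zero_smul, smul_mul_assoc]
  module

theorem nb_nr (h : NR (b y) t lam) : NR (nb lam y t b y) (t - lam) lam := by
  rw [nb_self h.smp]
  refine h.step (by rw [mul_assoc, sp_sp h.smp]) ?_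
  rw [← mul_assoc, ← mul_assoc, mul_sub, sp_sp h.smp, mul_one, sub_self, zero_mul, zero_mul]

theorem sp_nb (h : Smp (b y).charpoly t) :
    sp (b y) t * nb lam y t b y = (t - lam) • sp (b y) t := by
  rw [nb_self h, mul_add, ← mul_assoc, ← mul_assoc, mul_sub, mul_sub, sp_mul h, mul_smul_comm,
    sp_sp h, mul_one, sub_self, zero_mul, zero_mul, add_zero, sub_smul]

theorem nb_tr (h : Smp (b y).charpoly t) (w : ℂ) : (nb lam y t b w).trace = (b w).trace - lam := by
  have p1 := sp_sp h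
  have p2 := tr_sp h
  rw [nb]
  generalize sp (b y) t = P at *
  have p3 : ∀ X Y Z : Mn n, (X * Y * Z).trace = (Z * X * Y).trace := fun X Y Z =>
    trace_mul_cycle X Y Z
  have q1 : P * (1 - P) = 0 := by rw [mul_sub, mul_one, p1, sub_self]
  have q2 : (1 - P) * P = 0 := by rw [sub_mul, one_mul, p1, sub_self]
  have q3 : (1 - P) * (1 - P) = 1 - P := by rw [mul_sub, mul_one, q2, sub_zero]
  rw [trace_sub, trace_add, trace_add, trace_add, trace_smul, trace_smul, p3 P _ P,
    p3 P _ (1 - P), p3 (1 - P) _ P, p3 (1 - P) _ (1 - P), p1, q1, q2, q3, p2, sub_mul, trace_sub]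
  simp

theorem nb_diff {s : Set ℂ} (hs : s ∈ 𝓝 y) (hb : DifferentiableOn ℂ b s) :
    DifferentiableOn ℂ (nb lam y t b) s := by
  have := (Complex.differentiableOn_dslope hs).2 hb
  unfold nb
  fun_prop

theorem nb_an (hb : AnalyticAt ℂ b y) : AnalyticAt ℂ (nb lam y t b) y := by
  have := an_dslope hb
  unfold nb
  fun_prop

/-- `U` is a composite of `k` steps, up to a holomorphic change of the frame -/
structure LH (k : ℕ) (lam y t : ℂ) (b U : ℂ → Mn n) : Prop where
  an : AnalyticAt ℂ U y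
  con : ∃ b' : ℂ → Mn n, AnalyticAt ℂ b' y ∧
    ∀ᶠ w in 𝓝[≠] y, (lam * (w - y)) • deriv U w + b' w * U w = U w * b w
  det : ∃ δ : ℂ → ℂ, AnalyticAt ℂ δ y ∧ δ y ≠ 0 ∧ ∀ᶠ w in 𝓝[≠] y, (U w).det = (w - y) ^ k * δ w
  ker : ∀ v, U y *ᵥ v = 0 → b y *ᵥ v = t • v

theorem con_self {b' : ℂ → Mn n} (hb : AnalyticAt ℂ b y) (hU : AnalyticAt ℂ U y)
    (hb' : AnalyticAt ℂ b' y)
    (h : ∀ᶠ w in 𝓝[≠] y, (lam * (w - y)) • deriv U w + b' w * U w = U w * b w) :
    b' y * U y = U y * b y := by
  have a := hU.deriv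
  simpa using (ev_of_punct (AnalyticAt.continuousAt (𝕜 := ℂ) (by fun_prop))
    (AnalyticAt.continuousAt (𝕜 := ℂ) (by fun_prop)) h).self_of_nhds

theorem LH.fac (hb : AnalyticAt ℂ b y) (hs : Smp (b y).charpoly t) (h : LH (k + 1) lam y t b U) :
    ∃ U', LH k lam y (t - lam) (nb lam y t b) U' ∧ ∀ w, U w = U' w * u1 y t (b y) w := by
  obtain ⟨δ, d1, d2, d3⟩ := h.det
  obtain ⟨b', c1, c2⟩ := h.con
  have hU := h.an
  have h0 : (U y).det = 0 := by
    simpa using (ev_of_punct (an_det hU).continuousAt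
      (AnalyticAt.continuousAt (𝕜 := ℂ) (by fun_prop)) d3).self_of_nhds
  have p1 := sp_sp hs
  have h1 : U y * sp (b y) t = 0 := by
    obtain ⟨x, hx, h2⟩ := exists_mulVec_eq_zero_iff.2 h0
    obtain ⟨v, ω, e, -, -⟩ := sp_rank hs
    have a := sp_mulVec hs (h.ker x h2)
    rw [e, vecMulVec_mulVec, op_smul_eq_smul] at a
    rw [← a, mulVec_smul, smul_eq_zero] at h2
    rw [e, mul_vecMulVec, h2.resolve_left fun c => hx (by rw [← a, c, zero_smul]), zero_vecMulVec]
  set P := sp (b y) t with hP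
  have e : ∀ w, U w = (dslope U y w * P + U w * (1 - P)) * u1 y t (b y) w := fun w => by
    have a : (w - y) • (dslope U y w * P) = U w * P := by
      rw [← smul_mul_assoc, sub_smul_dslope, sub_mul, h1, sub_zero]
    rw [u1, ← hP]
    simp only [sub_mul, add_mul, mul_add, mul_sub, mul_smul_comm, mul_one, mul_assoc, p1,
      a, sub_self, add_zero]
    abel
  have a1 : AnalyticAt ℂ (fun w => dslope U y w * P + U w * (1 - P)) y := by
    have := an_dslope hU
    fun_prop
  set W := fun w => dslope U y w * P + U w * (1 - P) with hW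
  have a2 : ∀ᶠ w in 𝓝[≠] y,
      (lam * (w - y)) • deriv W w + b' w * W w = W w * nb lam y t b w := by
    filter_upwards [c2, self_mem_nhdsWithin,
      a1.eventually_analyticAt.filter_mono nhdsWithin_le_nhds] with w x1 x2 x3
    refine cancel_det (g := u1 y t (b y) w) (by rw [det_u1 hs]; exact sub_ne_zero.2 x2) ?_
    have x4 : deriv U w = deriv W w * u1 y t (b y) w + W w * P := by
      rw [show U = fun w => W w * u1 y t (b y) w from funext e]
      exact (x3.differentiableAt.hasDerivAt.mul (has_u1 w)).deriv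
    rw [x4, e w] at x1
    rw [mul_assoc (W w), eq_sub_of_add_eq' (nb_mul (lam := lam) hs w), mul_sub (W w),
      ← mul_assoc (W w),
      ← x1]
    simp only [add_mul, smul_mul_assoc, mul_smul_comm, smul_add, mul_assoc, hW, ← hP]
    abel
  refine ⟨W, ⟨a1, ⟨b', c1, a2⟩, ⟨δ, d1, d2, ?_⟩, fun v hv => ?_⟩, e⟩
  · filter_upwards [d3, self_mem_nhdsWithin] with w x1 x2
    rw [e w, det_mul, det_u1 hs, pow_succ, mul_right_comm] at x1
    exact mul_right_cancel₀ (sub_ne_zero.2 x2) x1
  · have x1 := con_self (nb_an hb) a1 c1 a2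
    rw [← sub_eq_zero]
    set x := nb lam y t b y *ᵥ v - (t - lam) • v with hx
    have x2 : W y *ᵥ x = 0 := by
      rw [hx, mulVec_sub, mulVec_mulVec, ← x1, ← mulVec_mulVec, mulVec_smul, hv]
      simp
    have x3 : P *ᵥ x = 0 := by
      rw [hx, mulVec_sub, mulVec_mulVec, sp_nb hs, smul_mulVec, mulVec_smul, sub_self]
    have x4 : U y *ᵥ x = 0 := by
      rw [e y, u1_self, ← mulVec_mulVec, sub_mulVec, x3, one_mulVec, sub_zero]
      exact x2
    rw [← sp_mulVec hs (h.ker x x4)]
    exact x3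

/-- uniqueness of the transformed lattice -/
theorem LH.uniq (hb : AnalyticAt ℂ b y) (hn : NR (b y) t lam) (h : LH k lam y t b U)
    (h' : LH k lam y t b U') : ∃ φ : ℂ → Mn n, AnalyticAt ℂ φ y ∧ (φ y).det ≠ 0 ∧
      ∀ᶠ w in 𝓝 y, U' w = φ w * U w := by
  induction k generalizing b t U U' with
  | zero =>
    have a : ∀ {U : ℂ → Mn n}, LH 0 lam y t b U → (U y).det ≠ 0 := fun {U} h => by
      obtain ⟨δ, d1, d2, d3⟩ := h.det
      rw [(ev_of_punct (an_det h.an).continuousAt
        (AnalyticAt.continuousAt (𝕜 := ℂ) (by fun_prop)) d3).self_of_nhds]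
      simpa using d2
    refine ⟨fun w => U' w * (U w)⁻¹, h'.an.mul (an_inv h.an (a h)), ?_, ?_⟩
    · rw [det_mul, det_nonsing_inv, Ring.inverse_eq_inv']
      exact mul_ne_zero (a h') (inv_ne_zero (a h))
    · filter_upwards [(an_det h.an).continuousAt.eventually_ne (a h)] with w hw
      rw [nonsing_inv_mul_cancel_right _ _ hw.isUnit]
  | succ k ih =>
    obtain ⟨W, h1, h2⟩ := h.fac hb hn.smp
    obtain ⟨W', h3, h4⟩ := h'.fac hb hn.smp
    obtain ⟨φ, a1, a2, a3⟩ := ih (nb_an hb) (nb_nr hn) h1 h3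
    exact ⟨φ, a1, a2, a3.mono fun w hw => by rw [h4, h2, hw, mul_assoc]⟩

/-- the composite of `k` steps -/
def UU (lam y : ℂ) : ℕ → ℂ → (ℂ → Mn n) → ℂ → Mn n
  | 0, _, _ => fun _ => 1
  | k + 1, t, b => fun w => UU lam y k (t - lam) (nb lam y t b) w * u1 y t (b y) w

/-- the operator after `k` steps -/
def bb (lam y : ℂ) : ℕ → ℂ → (ℂ → Mn n) → ℂ → Mn n
  | 0, _, b => b
  | k + 1, t, b => bb lam y k (t - lam) (nb lam y t b)

theorem UU_diff : Differentiable ℂ (UU lam y k t b) := by
  induction k generalizing t b with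
  | zero => exact differentiable_const _
  | succ k ih => exact ih.mul fun w => (has_u1 w).differentiableAt

theorem UU_det (h : NR (b y) t lam) (w : ℂ) : (UU lam y k t b w).det = (w - y) ^ k := by
  induction k generalizing t b with
  | zero => simp [UU]
  | succ k ih => rw [UU, det_mul, ih (nb_nr h), det_u1 h.smp, pow_succ]

theorem UU_con (h : NR (b y) t lam) (w : ℂ) : (lam * (w - y)) • deriv (UU lam y k t b) w +
    bb lam y k t b w * UU lam y k t b w = UU lam y k t b w * b w := by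
  induction k generalizing t b with
  | zero =>
    have a : deriv (UU lam y 0 t b) w = 0 := deriv_const _ _
    rw [a]
    simp [UU, bb]
  | succ k ih =>
    have a : deriv (UU lam y (k + 1) t b) w =
        deriv (UU lam y k (t - lam) (nb lam y t b)) w * u1 y t (b y) w +
          UU lam y k (t - lam) (nb lam y t b) w * sp (b y) t :=
      ((UU_diff w).hasDerivAt.mul (has_u1 w)).deriv
    rw [a, UU, bb, mul_assoc (UU _ _ _ _ _ _),
      ← nb_mul (lam := lam) h.smp, mul_add, ← mul_assoc (UU _ _ _ _ _ _), ← ih (nb_nr h)]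
    simp only [add_mul, smul_mul_assoc, mul_smul_comm, smul_add, mul_assoc]
    abel

theorem bb_tr (h : NR (b y) t lam) (w : ℂ) :
    (bb lam y k t b w).trace = (b w).trace - k * lam := by
  induction k generalizing t b with
  | zero => simp [bb]
  | succ k ih => rw [bb, ih (nb_nr h), nb_tr h.smp]; push_cast; ring

theorem bb_nr (h : NR (b y) t lam) : NR (bb lam y k t b y) (t - k * lam) lam := by
  induction k generalizing t b with
  | zero => simpa [bb] using h
  | succ k ih =>
    rw [show t - ((k + 1 : ℕ) : ℂ) * lam = t - lam - k * lam by push_cast; ring]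
    exact ih (nb_nr h)

theorem bb_diff {s : Set ℂ} (hs : s ∈ 𝓝 y) (hb : DifferentiableOn ℂ b s) :
    DifferentiableOn ℂ (bb lam y k t b) s := by
  induction k generalizing t b with
  | zero => exact hb
  | succ k ih => exact ih (nb_diff hs hb)

theorem bb_an (hb : AnalyticAt ℂ b y) : AnalyticAt ℂ (bb lam y k t b) y := by
  induction k generalizing t b with
  | zero => exact hb
  | succ k ih => exact ih (nb_an hb)

theorem UU_ker (h : NR (b y) t lam) {v : Fin n → ℂ} (hv : UU lam y k t b y *ᵥ v = 0) :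
    b y *ᵥ v = t • v := by
  induction k generalizing t b v with
  | zero =>
    obtain rfl : v = 0 := by simpa [UU] using hv
    simp
  | succ k ih =>
    rw [UU, ← mulVec_mulVec] at hv
    have a := eig_zero (nb_nr h).smp (sp_nb h.smp) (sp_ne h.smp) (ih (nb_nr h) hv) (by
      rw [mulVec_mulVec, u1_self, mul_sub, mul_one, sp_sp h.smp, sub_self, zero_mulVec])
    rw [u1_self, sub_mulVec, one_mulVec, sub_eq_zero] at a
    rw [a, mulVec_mulVec, mul_sp h.smp, smul_mulVec]

theorem UU_lh (hb : AnalyticAt ℂ b y) (h : NR (b y) t lam) : LH k lam y t b (UU lam y k t b) :=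
  ⟨UU_diff.analyticAt y, ⟨_, bb_an hb, Eventually.of_forall (UU_con h)⟩,
    ⟨fun _ => 1, analyticAt_const, one_ne_zero,
      Eventually.of_forall fun w => by rw [UU_det h, mul_one]⟩, fun _ => UU_ker h⟩

/-! ### dependence on parameters -/

section fam

variable {T : Type} [TopologicalSpace T] {V : Set T} {D : Set ℂ}

/-- continuity from continuity on a circle -/
theorem cont_sph {E : Type} [NormedAddCommGroup E] [NormedSpace ℂ E] {F : T → ℂ → E} {s₀ : T}
    {w₀ : ℂ} {ρ : ℝ} (hρ : 0 < ρ) (hD : closedBall w₀ ρ ⊆ D) (hs : s₀ ∈ V)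
    (hd : ∀ s ∈ V, DifferentiableOn ℂ (F s) D)
    (hc : ∀ w ∈ sphere w₀ ρ, ContinuousWithinAt (fun p : T × ℂ => F p.1 p.2) (V ×ˢ D) (s₀, w)) :
    ContinuousWithinAt (fun p : T × ℂ => F p.1 p.2) (V ×ˢ D) (s₀, w₀) := by
  have hn : D ∈ 𝓝 w₀ := mem_of_superset (closedBall_mem_nhds w₀ hρ) hD
  have h0 : Tendsto (fun p : T × ℂ => F s₀ p.2) (𝓝[V ×ˢ D] (s₀, w₀)) (𝓝 (F s₀ w₀)) :=
    ((hd s₀ hs).differentiableAt hn).continuousAt.tendsto.comp
      (continuous_snd.continuousAt.tendsto.mono_left nhdsWithin_le_nhds)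
  refine h0.congr_dist (Metric.tendsto_nhds.2 fun ε hε => ?_)
  have h1 : ∀ᶠ s in 𝓝 s₀, ∀ w ∈ sphere w₀ ρ, s ∈ V → w ∈ D → ‖F s₀ w - F s w‖ ≤ ε / 2 := by
    refine (isCompact_sphere w₀ ρ).eventually_forall_of_forall_eventually fun w hw => ?_
    have a : ContinuousWithinAt (fun p : T × ℂ => F s₀ p.2) (V ×ˢ D) (s₀, w) :=
      ContinuousWithinAt.comp (f := Prod.snd) (g := F s₀)
        ((hd s₀ hs).continuousOn w (hD (sphere_subset_closedBall hw)))
        continuousWithinAt_snd fun _ h => h.2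
    have c := (a.sub (hc w hw)).norm.eventually (eventually_le_nhds (b := ε / 2) (by simpa))
    exact (eventually_nhdsWithin_iff.1 c).mono fun p hp x1 x2 => hp ⟨x1, x2⟩
  filter_upwards [self_mem_nhdsWithin, mem_nhdsWithin_of_mem_nhds
    (prod_mem_nhds h1 (ball_mem_nhds w₀ hρ))] with p a c
  rw [dist_zero_right, Real.norm_of_nonneg dist_nonneg, dist_eq_norm]
  refine (Complex.norm_le_of_forall_mem_frontier_norm_le (f := fun w => F s₀ w - F p.1 w)
    isBounded_ball (((hd s₀ hs).sub (hd _ a.1)).diffContOnCl_ball hD) (fun w hw => ?_)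
    (subset_closure c.2)).trans_lt (half_lt_self hε)
  rw [frontier_ball _ hρ.ne'] at hw
  exact c.1 w hw a.1 (hD (sphere_subset_closedBall hw))

/-- continuity across a moving point -/
theorem cont_ext {E : Type} [NormedAddCommGroup E] [NormedSpace ℂ E] {F : T → ℂ → E} {c : T → ℂ}
    (hD : IsOpen D) (hd : ∀ s ∈ V, DifferentiableOn ℂ (F s) D) (hy : ContinuousOn c V)
    (hc : ContinuousOn (fun p : T × ℂ => F p.1 p.2) {p | p ∈ V ×ˢ D ∧ p.2 ≠ c p.1}) :
    ContinuousOn (fun p : T × ℂ => F p.1 p.2) (V ×ˢ D) := by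
  have a : ∀ p ∈ V ×ˢ D, p.2 ≠ c p.1 →
      ContinuousWithinAt (fun p : T × ℂ => F p.1 p.2) (V ×ˢ D) p := fun p hp hn => by
    refine (hc p ⟨hp, hn⟩).mono_of_mem_nhdsWithin ?_
    have : ContinuousWithinAt (fun p : T × ℂ => p.2 - c p.1) (V ×ˢ D) p :=
      continuousWithinAt_snd.sub ((hy _ hp.1).comp continuousWithinAt_fst fun _ h => h.1)
    filter_upwards [self_mem_nhdsWithin, this.eventually_ne (sub_ne_zero.2 hn)] with q x1 x2
    exact ⟨x1, sub_ne_zero.1 x2⟩
  intro p hp
  by_cases hn : p.2 = c p.1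
  · obtain ⟨ρ, hρ, h⟩ := nhds_basis_closedBall.mem_iff.1 (hD.mem_nhds hp.2)
    refine cont_sph hρ h hp.1 hd fun w hw => a _ ⟨hp.1, h (sphere_subset_closedBall hw)⟩ ?_
    intro e
    rw [mem_sphere, show w = p.2 from e.trans hn.symm, dist_self] at hw
    exact hρ.ne hw
  · exact a p hp hn

/-- a family of operators on `D` -/
structure LF (V : Set T) (D : Set ℂ) (lam y t : T → ℂ) (b : T → ℂ → Mn n) : Prop where
  op : IsOpen D
  cl : ContinuousOn lam V
  cy : ContinuousOn y V
  cc : ContinuousOn t V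
  mem : ∀ s ∈ V, y s ∈ D
  hol : ∀ s ∈ V, DifferentiableOn ℂ (b s) D
  ct : ContinuousOn (fun p : T × ℂ => b p.1 p.2) (V ×ˢ D)
  nr : ∀ s ∈ V, NR (b s (y s)) (t s) (lam s)

variable {lam y t : T → ℂ} {b : T → ℂ → Mn n}

theorem LF.val (h : LF V D lam y t b) : ContinuousOn (fun s => b s (y s)) V :=
  h.ct.comp (continuousOn_id.prodMk h.cy) fun s hs => ⟨hs, h.mem s hs⟩

theorem LF.sp (h : LF V D lam y t b) : ContinuousOn (fun s => sp (b s (y s)) (t s)) V :=
  fun s hs => tendsto_sp (h.nr s hs).smp (h.val s hs) (h.cc s hs)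

theorem on_fst {F : Type} [TopologicalSpace F] {f : T → F} (h : ContinuousOn f V) (D : Set ℂ) :
    ContinuousOn (fun p : T × ℂ => f p.1) (V ×ˢ D) :=
  h.comp continuousOn_fst fun _ h => h.1

theorem LF.nb (h : LF V D lam y t b) :
    LF V D lam y (fun s => t s - lam s) fun s => nb (lam s) (y s) (t s) (b s) := by
  refine ⟨h.op, h.cl, h.cy, h.cc.sub h.cl, h.mem,
    fun s hs => nb_diff (h.op.mem_nhds (h.mem s hs)) (h.hol s hs), ?_, fun s hs => nb_nr (h.nr s hs)⟩
  have a1 := on_fst h.sp D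
  have a2 := on_fst h.cy D
  have a3 := on_fst h.cl D
  have a4 := h.ct
  have a5 : ContinuousOn (fun p : T × ℂ => dslope (b p.1) (y p.1) p.2) (V ×ˢ D) := by
    refine cont_ext (F := fun s => dslope (b s) (y s)) h.op (fun s hs =>
      (Complex.differentiableOn_dslope (h.op.mem_nhds (h.mem s hs))).2 (h.hol s hs)) h.cy ?_
    refine ContinuousOn.congr (f := fun p => (p.2 - y p.1)⁻¹ • (b p.1 p.2 - b p.1 (y p.1))) ?_
      fun p hp => by rw [dslope_of_ne _ hp.2, slope_def_module]
    exact ((continuousOn_snd.sub (a2.mono fun _ h => h.1)).inv₀ fun p hp => sub_ne_zero.2 hp.2).smul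
      ((a4.sub (on_fst h.val D)).mono fun _ h => h.1)
  have a6 := (continuousOn_const (c := (1 : Mn n))).sub a1
  exact ((((((a1.mul a4).mul a1).add ((continuousOn_snd.sub a2).smul ((a1.mul a4).mul a6))).add
    ((a6.mul a5).mul a1)).add ((a6.mul a4).mul a6)).sub (a3.smul a1) :)

theorem LF.UU (h : LF V D lam y t b) (k : ℕ) :
    ContinuousOn (fun p : T × ℂ => UU (lam p.1) (y p.1) k (t p.1) (b p.1) p.2) (V ×ˢ univ) := by
  induction k generalizing t b with
  | zero => exact continuousOn_const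
  | succ k ih =>
    refine (ih h.nb).mul ?_
    have a1 := on_fst h.sp univ
    have a2 := on_fst h.cy univ
    exact (((continuousOn_snd.sub a2).smul a1).add (continuousOn_const.sub a1) :)

theorem LF.bb (h : LF V D lam y t b) (k : ℕ) :
    ContinuousOn (fun p : T × ℂ => bb (lam p.1) (y p.1) k (t p.1) (b p.1) p.2) (V ×ˢ D) := by
  induction k generalizing t b with
  | zero => exact h.ct
  | succ k ih => exact ih h.nb

end fam

end Vale.Agent.P275HE
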