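import Vale.Agent.P275HE.Defs
import Vale.Agent.P275HE.Loc
import Vale.Agent.P275MB.Lim
import Vale.Agent.P275GC.Ox

/-!
# P275, block HE: germs of objects, removable singularities, change of the chart
-/

set_option linter.unusedSectionVars false

open scoped Topology Matrix.Norms.Operator
open Set Filter Metric Matrix

noncomputable section

namespace Vale.Agent.P275HE

open Vale.Agent.P275GC Vale.Agent.P275GC.At Vale.Agent.P275MO Vale.Agent.P275MB
open Vale.Agent.P275NA (Fm Cy Mn)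
open Vale.Agent.P281Z.Hm (an_det an_inv)

variable {C : Type} [TopologicalSpace C] {n : ℕ} {A : At C} {l : Cy A ℂ} {i j : Fin A.N} {w : ℂ}
  {z z' : Dat C A.N n} {x y : C} {o : Fin n} {t : Fin A.N → ℂ} {u : Fm A (Mn n)} {R : Mn n}

/-! ### removable singularities -/

/-- the limit along punctured neighbourhoods -/
def xm (f : ℂ → Mn n) (w : ℂ) : Mn n := limUnder (𝓝[≠] w) f

theorem ev_ne (a b : ℂ) : ∀ᶠ x in 𝓝[≠] a, x ≠ b := by
  by_cases h : a = b
  · exact h ▸ self_mem_nhdsWithin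
  · exact mem_nhdsWithin_of_mem_nhds (eventually_ne_nhds h)

theorem xm_ev {f ψ : ℂ → Mn n} (h : AnalyticAt ℂ ψ w) (e : ∀ᶠ x in 𝓝[≠] w, f x = ψ x) :
    ∀ᶠ x in 𝓝 w, xm f x = ψ x := by
  filter_upwards [h.eventually_analyticAt, (eventually_nhdsWithin_iff.1 e).eventually_nhds]
    with x a b
  refine Tendsto.limUnder_eq ((a.continuousAt.tendsto.mono_left nhdsWithin_le_nhds).congr' ?_)
  filter_upwards [ev_ne x w, b.filter_mono nhdsWithin_le_nhds] with v c d
  exact (d c).symm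

theorem xm_an {f ψ : ℂ → Mn n} (h : AnalyticAt ℂ ψ w) (e : ∀ᶠ x in 𝓝[≠] w, f x = ψ x) :
    AnalyticAt ℂ (xm f) w := h.congr ((xm_ev h e).mono fun _ a => a.symm)

theorem xm_self {f : ℂ → Mn n} (h : AnalyticAt ℂ f w) : xm f w = f w :=
  (xm_ev h (Eventually.of_forall fun _ => rfl)).self_of_nhds

theorem ext_of {f : ℂ → Mn n} {L : Mn n} (h1 : ∀ᶠ x in 𝓝[≠] w, DifferentiableAt ℂ f x)
    (h2 : Tendsto f (𝓝[≠] w) (𝓝 L)) :
    ∃ ψ, AnalyticAt ℂ ψ w ∧ ψ w = L ∧ ∀ᶠ x in 𝓝[≠] w, f x = ψ x := by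
  classical
  refine ⟨Function.update f w L, ?_, Function.update_self .., ?_⟩
  · refine Complex.analyticAt_of_differentiable_on_punctured_nhds_of_continuousAt ?_
      (continuousAt_update_same.2 h2)
    filter_upwards [h1, self_mem_nhdsWithin] with x a b
    exact a.congr_of_eventuallyEq ((eventually_ne_nhds b).mono fun v c => Function.update_of_ne c ..)
  · filter_upwards [self_mem_nhdsWithin] with x a
    exact (Function.update_of_ne a ..).symm

theorem lim_an {F : Type} [NormedAddCommGroup F] [NormedSpace ℂ F] {f : ℂ → F}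
    (h : AnalyticAt ℂ f w) : Tendsto f (𝓝[≠] w) (𝓝 (f w)) :=
  h.continuousAt.tendsto.mono_left nhdsWithin_le_nhds

theorem deriv_punct {f g : ℂ → Mn n} (e : ∀ᶠ x in 𝓝[≠] w, f x = g x) :
    ∀ᶠ x in 𝓝[≠] w, deriv f x = deriv g x := by
  filter_upwards [eventually_eventually_nhdsWithin.2 e, self_mem_nhdsWithin] with x a b
  rw [isOpen_compl_singleton.nhdsWithin_eq b] at a
  exact EventuallyEq.deriv_eq a

/-! ### the projector -/

theorem pe_pe (o : Fin n) : pe o * pe o = pe o := by simp [pe]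

theorem tr_pe (o : Fin n) : (pe o).trace = 1 := by simp [pe]

theorem pe_co (o : Fin n) : pe o * (1 - pe o) = 0 := by rw [mul_sub, pe_pe, mul_one, sub_self]

theorem co_pe (o : Fin n) : (1 - pe o) * pe o = 0 := by rw [sub_mul, pe_pe, one_mul, sub_self]

theorem co_co (o : Fin n) : (1 - pe o) * (1 - pe o) = 1 - pe o := by
  rw [mul_sub, mul_one, co_pe, sub_zero]

theorem pe_mul_pe (R : Mn n) : pe o * R * pe o = R o o • pe o := by simp [pe]

theorem mul_pe (h : R * pe o = pe o * R) : R * pe o = R o o • pe o := by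
  rw [← pe_mul_pe, ← h, mul_assoc, pe_pe]

theorem sp_pe (h : R * pe o = pe o * R) (hs : Smp R.charpoly (R o o)) : sp R (R o o) = pe o :=
  sp_unique hs (mul_pe h) (h ▸ mul_pe h) (tr_pe o)

theorem mu_oo (o : Fin n) : mu o o o = 1 - n := by simp [mu, pe]

theorem spl_add (h : R * pe o = pe o * R) (c : ℂ) :
    (R + c • mu o) * pe o = pe o * (R + c • mu o) := by
  simp only [mu, add_mul, mul_add, h, smul_mul_assoc, mul_smul_comm, sub_mul, mul_sub, one_mul,
    mul_one]

theorem add_oo (R : Mn n) (c : ℂ) : (R + c • mu o) o o = R o o - n * c + c := by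
  rw [Matrix.add_apply, Matrix.smul_apply, mu_oo, smul_eq_mul]
  ring

theorem smp_add {c : ℂ} (h : R * pe o = pe o * R) (hn : NR R (R o o) c) :
    Smp (R + c • mu o).charpoly ((R + c • mu o) o o) := by
  have := (smp_shift c).2 (hn.smp_sub n)
  rw [sp_pe h hn.smp] at this
  rwa [add_oo, show R + c • mu o = R - (n * c) • pe o + c • 1 by rw [mu]; module]

/-! ### the twisted matrix of the connection -/

theorem ne_iff (hy : y ∈ (A.e i).source) (hw : w ∈ ball (0 : ℂ) A.R) :
    (A.e i).symm w ≠ y ↔ w ≠ A.e i y :=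
  not_congr ⟨fun h => by rw [← h, rinv hw], fun h => by rw [h, (A.e i).left_inv hy]⟩

theorem ev_ne' (hw : w ∈ ball (0 : ℂ) A.R) (i : Fin A.N) (y : C) :
    ∀ᶠ v in 𝓝[≠] w, v ∈ off A y i := by
  filter_upwards [ev_ne w (A.e i y), mem_nhdsWithin_of_mem_nhds (isOpen_ball.mem_nhds hw)]
    with v a b
  exact ⟨b, fun e => a (by rw [← e, rinv b])⟩

theorem sg_ne (hw : w ∈ off A x i) : A.sg x x i w ≠ 0 := fun e => hw.2 ((sg_eq_zero hw.1).1 e)

open Classical in
/-- the matrix of the connection times the canonical section of `O(x)` -/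
def bz (A : At C) (z : Dat C A.N n) (i : Fin A.N) : ℂ → Mn n :=
  if z.x ∈ (A.e i).source then fill A z i else z.a i

theorem bz_off (hw : w ∈ off A z.x i) : bz A z i w = A.sg z.x z.x i w • z.a i w := by
  by_cases h : z.x ∈ (A.e i).source
  · rw [bz, if_pos h, fill, if_neg hw.2, sg_mem h]
  · rw [bz, if_neg h, sg_not h, one_smul]

theorem bz_pole (h : z.x ∈ (A.e i).source) :
    bz A z i (A.e i z.x) = z.σ i * z.R * (z.σ i)⁻¹ := by
  rw [bz, if_pos h, fill, if_pos ((A.e i).left_inv h)]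

variable [T2Space C]

theorem a_an (g : Good A l z) (hw : w ∈ off A z.x i) : AnalyticAt ℂ (z.a i) w :=
  (g.hol i).analyticAt ((off_open z.x i).mem_nhds hw)

theorem bz_an (g : Good A l z) (hw : w ∈ ball (0 : ℂ) A.R) (i : Fin A.N) :
    AnalyticAt ℂ (bz A z i) w := by
  have a : ∀ v ∈ off A z.x i, AnalyticAt ℂ (bz A z i) v := fun v hv =>
    ((an_sg z.x z.x i v).smul (a_an g hv)).congr
      (eventually_of_mem ((off_open z.x i).mem_nhds hv) fun _ h => (bz_off h).symm)
  by_cases h : (A.e i).symm w = z.x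
  · have hx : z.x ∈ (A.e i).source := h ▸ map_tgt hw
    obtain rfl : w = A.e i z.x := by rw [← h, rinv hw]
    refine Complex.analyticAt_of_differentiable_on_punctured_nhds_of_continuousAt
      ((off_ev hx).mono fun v hv => (a v hv).differentiableAt)
      (continuousAt_iff_punctured_nhds.2 ?_)
    rw [bz_pole hx]
    exact (g.pole i hx).congr' ((off_ev hx).mono fun v hv => by rw [bz_off hv, sg_mem hx])
  · exact a w ⟨hw, h⟩

theorem bz_diff (g : Good A l z) (i : Fin A.N) : DifferentiableOn ℂ (bz A z i) (ball 0 A.R) :=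
  fun _ h => (bz_an g h i).differentiableAt.differentiableWithinAt

open Classical in
/-- the factor between `bz` and `val` -/
def nf (A : At C) (x y : C) (i : Fin A.N) : ℂ := if y = x then 1 else A.sg x x i (A.e i y)

theorem mem_off (hy : y ∈ (A.e i).source) (h : y ≠ x) : A.e i y ∈ off A x i :=
  ⟨map_src hy, by rwa [(A.e i).left_inv hy]⟩

theorem nf_ne (hy : y ∈ (A.e i).source) : nf A x y i ≠ 0 := by
  by_cases h : y = x
  · rw [nf, if_pos h]; exact one_ne_zero
  · rw [nf, if_neg h]; exact sg_ne (mem_off hy h)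

theorem bz_val (hy : y ∈ (A.e i).source) :
    bz A z i (A.e i y) = nf A z.x y i • val A z y i := by
  by_cases h : y = z.x
  · rw [nf, val, if_pos h, if_pos h, one_smul, h, bz_pole (h ▸ hy)]
  · rw [nf, val, if_neg h, if_neg h, bz_off (mem_off hy h)]

theorem lam_sg (h : y = z.x ∨ z.lam = 0) (hy : y ∈ (A.e i).source) (w : ℂ) :
    z.lam * (w - A.e i y) = z.lam * A.sg z.x z.x i w := by
  rcases h with h | h
  · rw [sg_mem (h ▸ hy), h]
  · rw [h, zero_mul, zero_mul]

/-- the scalar in the transition law -/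
def lc (n : ℕ) (lam : ℂ) (l : Cy A ℂ) (i j : Fin A.N) (w : ℂ) : ℂ :=
  (n : ℂ)⁻¹ * (lam * (deriv (l i j) w / l i j w))

theorem lc_an (hl : A.Cc l) (h : w ∈ A.O i j) (lam : ℂ) : AnalyticAt ℂ (lc n lam l i j) w :=
  analyticAt_const.mul (analyticAt_const.mul ((hl.an h).deriv.div (hl.an h) (hl.ne h)))

theorem ox_d (hx : x ∈ (A.e i).source) (hx' : x ∈ (A.e j).source) :
    A.ox x x i j (A.e i x) * A.d i j (A.e i x) = 1 := by
  rw [(nr_self x le_rfl).ox_at (h1 := A.hR) (h2 := le_rfl) (res_self.2 (mem_O hx hx'))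
    ((A.e i).left_inv hx), inv_mul_cancel₀ (d_ne (mem_O hx hx'))]

/-- the residue in another chart -/
theorem pole_tr {g : Cy A (Mn n)} {a : Fm A (Mn n)} {lam : ℂ} {c : ℂ → ℂ} {B : Mn n} (hg : A.Cc g)
    (hx : x ∈ (A.e i).source) (hx' : x ∈ (A.e j).source) (hc : AnalyticAt ℂ c (A.e i x))
    (law : ∀ᶠ w in 𝓝[≠] (A.e i x), a i w * g i j w + lam • deriv (g i j) w =
      A.d i j w • (g i j w * a j (A.tr i j w)) + c w • g i j w)
    (h : Tendsto (fun w => (w - A.e j x) • a j w) (𝓝[≠] (A.e j x)) (𝓝 B)) :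
    Tendsto (fun w => (w - A.e i x) • a i w) (𝓝[≠] (A.e i x))
      (𝓝 (g i j (A.e i x) * B * (g i j (A.e i x))⁻¹)) := by
  have hO := mem_O hx hx'
  have h1 := h.comp (tr_e hx ▸ tends_tr hO)
  have h2 := lim_an (hg.an hO)
  have h3 : Tendsto (fun w => w - A.e i x) (𝓝[≠] (A.e i x)) (𝓝 0) := by
    simpa using lim_an (f := fun w => w - A.e i x) (w := A.e i x) (by fun_prop)
  have h5 : Tendsto (deriv (g i j)) (𝓝[≠] (A.e i x)) (𝓝 (deriv (g i j) (A.e i x))) :=
    lim_an (hg.an hO).deriv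
  have h4 := ((((lim_an ((A.cc_ox x).an hO)).mul (lim_an (an_d hO))).smul (h2.mul h1)).add
    (h3.smul (((lim_an hc).smul h2).sub (h5.const_smul lam)))).mul
    (lim_an (an_inv (hg.an hO) (hg.det_ne hO)))
  rw [ox_d hx hx', one_smul, zero_smul, add_zero] at h4
  refine h4.congr' ?_
  filter_upwards [law, mem_nhdsWithin_of_mem_nhds (O_nhds hO)] with w e hw
  have e1 := A.sec_sg x i j w hw
  rw [sg_mem hx, sg_mem hx', smul_eq_mul] at e1
  beta_reduce at e1
  refine cancel_det (hg.det_ne hw) ?_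
  rw [nonsing_inv_mul_cancel_right _ _ (hg.det_ne hw).isUnit, smul_mul_assoc,
    eq_sub_of_add_eq e, e1]
  simp only [Function.comp, mul_smul_comm]
  module

theorem frc_inv (g : Good A l z) (hx : z.x ∈ (A.e i).source) (hx' : z.x ∈ (A.e j).source) :
    z.σ i * z.R * (z.σ i)⁻¹ * z.g i j (A.e i z.x) =
      z.g i j (A.e i z.x) * (z.σ j * z.R * (z.σ j)⁻¹) := by
  refine cancel_det (g.fr j hx') ?_
  rw [mul_assoc _ _ (z.σ j), ← g.frc i j hx hx', nonsing_inv_mul_cancel_right _ _ (g.fr i hx).isUnit,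
    mul_assoc, nonsing_inv_mul_cancel_right _ _ (g.fr j hx').isUnit, g.frc i j hx hx', mul_assoc]

/-- admissible points of the spectral curve -/
structure Adm (A : At C) (o : Fin n) (z : Dat C A.N n) (y : C) (t : Fin A.N → ℂ) : Prop where
  or : y = z.x ∨ z.lam = 0
  spl : z.R * pe o = pe o * z.R
  nr : NR z.R (z.R o o) z.lam
  pole : y = z.x → ∀ i, y ∈ (A.e i).source → t i = z.R o o
  smp : y ≠ z.x → ∀ i, y ∈ (A.e i).source → Smp (z.a i (A.e i y)).charpoly (t i)
  cmp : y ≠ z.x → ∀ i j, y ∈ (A.e i).source → y ∈ (A.e j).source →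
    t i = A.d i j (A.e i y) * t j

theorem char_pole (g : Good A l z) (hx : z.x ∈ (A.e i).source) :
    (z.σ i * z.R * (z.σ i)⁻¹).charpoly = z.R.charpoly :=
  char_conj (g.fr i hx) (nonsing_inv_mul_cancel_right _ _ (g.fr i hx).isUnit)

theorem Adm.nrz (g : Good A l z) (h : Adm A o z y t) (hy : y ∈ (A.e i).source) :
    NR (bz A z i (A.e i y)) (nf A z.x y i * t i) z.lam := by
  by_cases e : y = z.x
  · rw [h.pole e i hy, nf, if_pos e, one_mul, e, bz_pole (e ▸ hy)]
    exact h.nr.congr (char_pole g (e ▸ hy))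
  · rw [h.or.resolve_left e, bz_val hy, val, if_neg e]
    exact ((smp_smul (nf_ne hy)).2 (h.smp e i hy)).nr

theorem law0 (g : Good A l z) (h0 : z.lam = 0) (h : w ∈ A.O i j) (hx : (A.e i).symm w ≠ z.x) :
    z.a i w * z.g i j w = A.d i j w • (z.g i j w * z.a j (A.tr i j w)) := by
  simpa [h0] using Good.law' g h hx

theorem Adm.eig (g : Good A l z) (h : Adm A o z y t) (hy : y ∈ (A.e i).source)
    (hy' : y ∈ (A.e j).source) {v : Fin n → ℂ} (hv : val A z y j *ᵥ v = t j • v) :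
    val A z y i *ᵥ (z.g i j (A.e i y) *ᵥ v) = t i • (z.g i j (A.e i y) *ᵥ v) := by
  rw [mulVec_mulVec]
  by_cases e : y = z.x
  · rw [val, if_pos e] at hv ⊢
    rw [h.pole e i hy, ← h.pole e j hy', e, frc_inv g (e ▸ hy) (e ▸ hy'), ← mulVec_mulVec, hv,
      mulVec_smul]
  · rw [val, if_neg e] at hv ⊢
    rw [law0 g (h.or.resolve_left e) (mem_O hy hy') (mem_off hy e).2, smul_mulVec,
      ← mulVec_mulVec, tr_e hy, hv, mulVec_smul, smul_smul, h.cmp e i j hy hy']

end Vale.Agent.P275HE
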