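import Vale.Agent.P275HE.Fam
import Vale.Agent.P275MB.Nice
import Vale.Agent.P275KR.Irr

/-!
# P275, block HE: the elementary transformation on the moduli space
-/

set_option linter.unusedSectionVars false

open scoped Topology Matrix.Norms.Operator
open Set Filter Metric Matrix

noncomputable section

namespace Vale.Agent.P275HE

open Vale.Agent.P275GC Vale.Agent.P275GC.At Vale.Agent.P275MO Vale.Agent.P275MB
open Vale.Agent.P275NA (Fm Cy Mn)

variable {C : Type} [TopologicalSpace C] {n : ℕ} {A : At C} {l : Cy A ℂ} {τ : Ty n} {i : Fin A.N}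
  {o : Fin n} {j : Fin τ.m} {κ : ℝ} {R : Mn n} {lam w : ℂ} {r : ℝ} {h1 : 1 < r} {h2 : r ≤ A.R}
  {y : C} {t : Fin A.N → ℂ} {m m' : Mod A l τ} {u : Fm A (Mn n)}

/-! ### residues -/

theorem HTy.nr (h : HTy τ o j κ) (hq : R ∈ τ.q) (hi : (τ.η R j).im ≠ 0) (hl : lam.im = 0) :
    NR R (R o o) lam := by
  refine ⟨_, h.chp R hq, fun k e => ?_⟩
  rw [Polynomial.eval_pow, Polynomial.eval_sub, Polynomial.eval_X, Polynomial.eval_C,
    h.eta R hq] at e
  have := congrArg Complex.im (pow_eq_zero_iff' .. |>.1 e).1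
  simp [hl, sub_mul] at this
  rcases this with a | a | a
  · exact o.pos.ne' a
  · exact h.ne a
  · exact hi a

theorem HTy.one (h : HTy τ o j κ) (hn : 2 ≤ n) : κ * τ.η (mu o) j = 1 := by
  have a := h.eta _ h.mem
  have b : (1 - n : ℂ) ≠ 0 := sub_ne_zero.2 (by exact_mod_cast (by omega : 1 ≠ n))
  rw [mu_oo] at a
  exact mul_left_cancel₀ b (by rw [← a, mul_one])

theorem HTy.im (h : HTy τ o j κ) (hn : 2 ≤ n) (hl : lam.im = 0) :
    (τ.η (R + lam • mu o) j).im = (τ.η R j).im := by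
  have := congrArg Complex.im (h.one hn)
  simp [h.ne] at this
  simp [hl, this]

theorem HTy.pe_mem (h : HTy τ o j κ) : pe o ∈ τ.H :=
  h.row _ fun a b e => by simp [pe, Ne.symm e]

/-- the frame which splits the residue -/
def hs (o : Fin n) (R : Mn n) : Mn n := 1 + (pe o - sp R (R o o))

theorem HTy.col' (h : HTy τ o j κ) (hq : R ∈ τ.q) : R * pe o = R o o • pe o := by
  ext a b
  by_cases e : b = o
  · by_cases e' : a = o
    · simp [pe, e, e']
    · simp [pe, e, Ne.symm e', h.col R hq a e']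
  · simp [pe, e, Ne.symm e]

theorem sp_row (h : R * pe o = R o o • pe o) (s : Smp R.charpoly (R o o)) :
    ∃ v, pe o - sp R (R o o) = vecMulVec (Pi.single o 1) v ∧ v o = 0 := by
  obtain ⟨v, ω, a, -, -⟩ := sp_rank s
  have b := fun c => congrFun (congrFun (sp_left s h) c) o
  simp only [a, pe, mul_single_apply_same, vecMulVec_apply, mul_one] at b
  have b0 := b o
  rw [single_apply_same] at b0
  refine ⟨fun c => (pe o - sp R (R o o)) o c, Matrix.ext fun c d => ?_, by simp [a, pe, vecMulVec_apply, b0]⟩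
  by_cases e : c = o
  · simp [e, vecMulVec_apply]
  · have := b c
    rw [single_apply_of_row_ne (Ne.symm e), mul_eq_zero] at this
    have v0 := this.resolve_right (right_ne_zero_of_mul (b0 ▸ one_ne_zero))
    simp [e, vecMulVec_apply, a, pe, v0, Ne.symm e]

theorem HTy.spl (h : HTy τ o j κ) (hq : R ∈ τ.q) (s : Smp R.charpoly (R o o)) :
    hs o R ∈ τ.H ∧ (hs o R).det = 1 ∧
      (hs o R)⁻¹ * R * hs o R * pe o = pe o * ((hs o R)⁻¹ * R * hs o R) := by
  obtain ⟨v, a, b⟩ := sp_row (h.col' hq) s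
  have d : (hs o R).det = 1 := by rw [hs, a, det_one_add_vec]; simp [b]
  have c := sp_left s (h.col' hq)
  have e1 : sp R (R o o) * hs o R = pe o := by
    rw [hs, mul_add, mul_sub, c, sp_sp s, mul_one, add_sub_cancel]
  have e2 : hs o R * pe o = pe o := by
    rw [hs, add_mul, sub_mul, c, pe_pe, one_mul, sub_self, add_zero]
  have u : IsUnit (hs o R).det := d ▸ isUnit_one
  have e3 : (hs o R)⁻¹ * sp R (R o o) = pe o * (hs o R)⁻¹ := by
    refine cancel_det u.ne_zero ?_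
    rw [mul_assoc, e1, nonsing_inv_mul_cancel_right _ _ u]
    conv_lhs => rw [← e2, nonsing_inv_mul_cancel_left _ _ u]
  refine ⟨add_mem (one_mem _) (h.row _ fun c d e => by rw [a]; simp [vecMulVec_apply, e]), d, ?_⟩
  rw [← mul_assoc, ← mul_assoc, ← e3, mul_assoc _ _ R, sp_mul s, ← mul_sp s, mul_assoc _ (_ * _),
    mul_assoc R, e1, mul_assoc _ _ (pe o), e2, mul_assoc]

theorem HTy.oo (h : HTy τ o j κ) {z z₂ : Ob A l τ} (e : z.pt = z₂.pt) : z.1.R o o = z₂.1.R o o := by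
  rw [h.eta _ z.2.2, h.eta _ z₂.2.2, ← η_pt, ← η_pt, e]

theorem om_pt {z : Ob A l τ} : z.pt ∈ Om A l τ j ↔ z.1.lam.im = 0 ∧ (τ.η z.1.R j).im ≠ 0 := by
  rw [← η_pt]; rfl

/-- the same object in a split frame -/
def osp (h : HTy τ o j κ) (z : Ob A l τ) (a : z.pt ∈ Om A l τ j) : Ob A l τ :=
  ⟨z.1.act (hs o z.1.R), by
    obtain ⟨b, c, -⟩ := h.spl z.2.2 (h.nr z.2.2 (om_pt.1 a).2 (om_pt.1 a).1).smp
    have d : (hs o z.1.R).det ≠ 0 := c ▸ one_ne_zero
    obtain ⟨⟨r, a1, a2, g, s⟩, q⟩ := z.2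
    refine ⟨⟨r, a1, a2, Good.act (A := A.res r a1 a2) g d, s⟩, ?_⟩
    have := (τ.conj _ (inv_mem_alg b d) (by simpa using d) _ q).1
    rwa [nonsing_inv_nonsing_inv _ d.isUnit] at this⟩

theorem osp_pt (h : HTy τ o j κ) (z : Ob A l τ) (a : z.pt ∈ Om A l τ j) : (osp h z a).pt = z.pt :=
  pt_eq_iff.2 ⟨A.R, A.hR, le_rfl, _, _,
    (h.spl z.2.2 (h.nr z.2.2 (om_pt.1 a).2 (om_pt.1 a).1).smp).1, isoBy_act (A := A.res ..) z.1 _⟩

/-! ### characteristic polynomials -/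

theorem char_pt {z z₂ : Ob A l τ} (e : z.pt = z₂.pt) (h0 : z.1.lam = 0) (hw : ‖w‖ < 1)
    (hx : (A.e i).symm w ≠ z.1.x) : (z₂.1.a i w).charpoly = (z.1.a i w).charpoly := by
  obtain ⟨r, a1, a2, φ, h, -, f⟩ := pt_eq_iff.1 e
  have := f.con i w ⟨unit_r a1 hw, hx⟩
  rw [h0, zero_smul, zero_add] at this
  exact char_conj (f.det i w (unit_r a1 hw)) this

variable [T2Space C]

theorem Hk.char {z z' : Dat C A.N n} (k : Hk A o z z' y t u) (g : Good A l z) (g' : Good A l z')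
    (h0 : z.lam = 0) (hw : w ∈ off A z.x i) : (z'.a i w).charpoly = (z.a i w).charpoly := by
  refine Polynomial.ext fun d => (ev_of_punct (f := fun w => (z'.a i w).charpoly.coeff d)
    (g := fun w => (z.a i w).charpoly.coeff d)
    ((cont_coeff d).continuousAt.comp (a_an g' (k.x ▸ hw)).continuousAt)
    ((cont_coeff d).continuousAt.comp (a_an g hw).continuousAt)
    (((ev_ne' hw.1 i y).and (ev_ne' hw.1 i z.x)).mono fun v ⟨b1, b2⟩ => ?_)).self_of_nhds
  have := k.con i v b2 b1.2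
  rw [h0, zero_smul, zero_add] at this
  rw [char_conj (k.ne b1) this]

theorem smp_tr {z : Dat C A.N n} {k : Fin A.N} {s : ℂ} (g : Good A l z) (h0 : z.lam = 0)
    (b : y ∈ (A.e i).source) (c : y ∈ (A.e k).source) (e : y ≠ z.x)
    (d : Smp (z.a k (A.e k y)).charpoly s) :
    Smp (z.a i (A.e i y)).charpoly (A.d i k (A.e i y) * s) := by
  have c5 := law0 g h0 (mem_O b c) (mem_off b e).2
  rw [tr_e b, ← mul_smul_comm] at c5
  rw [char_conj (g.cc.det_ne (mem_O b c)) c5]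
  exact (smp_smul (d_ne (mem_O b c))).2 d

theorem HTy.adm (h : HTy τ o j κ) {z : Ob A l τ} (g : Good (A.res r h1 h2) l z.1)
    (om : z.pt ∈ Om A l τ j) (or : y = z.pt.x ∨ z.pt.lam = 0) (a : AdM o z.pt y t)
    (s : z.1.R * pe o = pe o * z.1.R) : Adm (A.res r h1 h2) o z.1 y t := by
  refine ⟨or, s, h.nr z.2.2 (om_pt.1 om).2 (om_pt.1 om).1,
    fun e i b => (a.pole e i b.1).trans (h.oo (Mod.pt_rep _)), fun e i b => ?_,
    fun e i k b c => a.cmp e i k b.1 c.1⟩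
  obtain ⟨k, c1, c2, c3⟩ := a.smp e
  have h0 : z.1.lam = 0 := or.resolve_left e
  rw [char_pt (Mod.pt_rep _).symm h0 c2 (mem_off c1 e).2] at c3
  rw [a.cmp e i k b.1 c1]
  exact smp_tr (A := A.res r h1 h2) (k := k) g h0 b ⟨c1, unit_r h1 c2⟩ e c3

theorem HTy.ob (h : HTy τ o j κ) (hn : 2 ≤ n) {z z' : Dat C A.N n}
    (k : Hk (A.res r h1 h2) o z z' y t u) (g' : Good (A.res r h1 h2) l z') (hq : z.R ∈ τ.q)
    (hl : z.lam.im = 0) (hi : (τ.η z.R j).im ≠ 0) : IsOb A l τ.q z' := by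
  have q : z'.R ∈ τ.q := k.R ▸ add_mem hq (τ.q.smul_mem _ h.mem)
  exact ⟨⟨r, h1, h2, g', fun d S a b c e => (P275KR.irr (A := A.res r h1 h2) h z' g' q
    (k.lam ▸ hl) (by rwa [k.R, h.im hn hl]) d S a b c e).elim⟩, q⟩

theorem hk_ex {z : Dat C A.N n} (g : Good A l z) (a : Adm A o z y t) :
    ∃ z', Good A l z' ∧ Hk A o z z' y t (uz A z y t) := by
  obtain ⟨i, hi, -⟩ := A.cov z.x
  obtain ⟨τ₀, h⟩ := ex_tau (sp_ne (bn_smp g a hi)) o
  exact ⟨_, tz_good g a hi (sz_det g a hi h), tz_hk g a hi⟩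

theorem HTy.uniq (h : HTy τ o j κ) (om : m ∈ Om A l τ j) (or : y = m.x ∨ m.lam = 0)
    (a : AdM o m y t) {m₂ : Mod A l τ} (k : HkM o m y t m') (k₂ : HkM o m y t m₂) : m' = m₂ := by
  obtain ⟨z, z', rfl, rfl, r, a1, a2, u, g, g', k⟩ := k
  obtain ⟨z₂, z₂', e, rfl, r₂, b1, b2, u₂, g₂, g₂', k₂⟩ := k₂
  have c := lt_min a1 b1
  replace g := Good.mono g c (min_le_left ..)
  replace g' := Good.mono g' c (min_le_left ..)
  replace g₂ := Good.mono g₂ c (min_le_right ..)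
  replace g₂' := Good.mono g₂' c (min_le_right ..)
  obtain ⟨φ, f, fH, I⟩ := (pt_eq_iff' g g₂).1 e.symm
  obtain ⟨c1, c2, -, J, -⟩ := Hk.iso g g' g₂ g₂' (h.adm g om or a k.spl) I (h.oo e)
    (k.mono c (min_le_left ..)) (k₂.mono c (min_le_right ..))
  exact (pt_eq_iff' g' g₂').2 ⟨_, _, add_mem (τ.H.smul_mem h.pe_mem _)
    (τ.H.smul_mem (mul_mem (sub_mem (one_mem _) h.pe_mem) fH) _), J⟩

theorem HTy.adm' (h : HTy τ o j κ) {z : Ob A l τ} (g : Good (A.res r h1 h2) l z.1)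
    (om : z.pt ∈ Om A l τ j) (or : y = z.pt.x ∨ z.pt.lam = 0) (a : AdM o z.pt y t) :
    Good (A.res r h1 h2) l (osp h z om).1 ∧ Adm (A.res r h1 h2) o (osp h z om).1 y t := by
  obtain ⟨-, c, d⟩ := h.spl z.2.2 (h.nr z.2.2 (om_pt.1 om).2 (om_pt.1 om).1).smp
  have g' : Good (A.res r h1 h2) l (osp h z om).1 := Good.act g (c ▸ one_ne_zero)
  have e := osp_pt h z om
  exact ⟨g', h.adm g' (e ▸ om) (e ▸ or) (e ▸ a) d⟩

theorem HTy.rel (h : HTy τ o j κ) (hn : 2 ≤ n) (om : m ∈ Om A l τ j) (or : y = m.x ∨ m.lam = 0)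
    (a : AdM o m y t) (m' : Mod A l τ) : HkM o m y t m' ↔ m' = psi o y t m := by
  have ex : ∃ m', HkM o m y t m' := by
    obtain ⟨z, rfl⟩ := pt_surj m
    obtain ⟨r, a1, a2, g⟩ := Ob.ex z
    obtain ⟨g₁, b⟩ := h.adm' g om or a
    obtain ⟨z', g', k⟩ := hk_ex g₁ b
    have c := om_pt.1 ((osp_pt h z om).symm ▸ om)
    exact ⟨_, _, ⟨z', h.ob hn k g' (osp h z om).2.2 c.1 c.2⟩, osp_pt h z om, rfl, r, a1, a2, _,
      g₁, g', k⟩
  have b : HkM o m y t (psi o y t m) := by rw [psi, dif_pos ex]; exact ex.choose_spec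
  exact ⟨fun k => h.uniq om or a k b, fun e => e ▸ b⟩

omit [T2Space C] in
theorem HkM.inv (k : HkM o m y t m') :
    m'.lam = m.lam ∧ m'.x = m.x ∧ m'.η = m.η + m.lam • τ.η (mu o) := by
  obtain ⟨z, z', rfl, rfl, r, a1, a2, u, -, -, k⟩ := k
  exact ⟨k.lam, k.x, by rw [η_pt, η_pt, k.R, map_add, map_smul]; rfl⟩

theorem HkM.fib (k : HkM o m y t m') (h0 : m.lam = 0) : m' ∈ Fb m := by
  obtain ⟨b1, b2, b3⟩ := k.inv
  refine ⟨b1.trans h0, b2, by rw [b3, h0, zero_smul, add_zero], fun i w hw hx => ?_⟩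
  obtain ⟨z, z', rfl, rfl, r, a1, a2, u, g, g', k⟩ := k
  rw [char_pt (Mod.pt_rep _).symm (b1.trans h0) hw (k.x ▸ hx), char_pt (Mod.pt_rep _).symm h0 hw hx]
  exact k.char g g' h0 ⟨unit_r a1 hw, hx⟩

omit [T2Space C] in
theorem psi_inv (m : Mod A l τ) : (psi o y t m).lam = m.lam ∧ (psi o y t m).x = m.x := by
  by_cases e : ∃ m', HkM o m y t m'
  · rw [psi, dif_pos e]; exact ⟨e.choose_spec.inv.1, e.choose_spec.inv.2.1⟩
  · rw [psi, dif_neg e]; exact ⟨rfl, rfl⟩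

omit [T2Space C] in
theorem adm_pole (m : Mod A l τ) : AdM o m m.x fun _ => m.rep.1.R o o :=
  ⟨fun _ _ _ => rfl, fun e => absurd rfl e, fun e => absurd rfl e⟩

/-! ### families -/

section fam

variable {T : Type} [TopologicalSpace T] {F : T → Ob A l τ} {V : Set T} {s₀ : T} {y : T → C}
  {t : T → Fin A.N → ℂ}

omit [T2Space C] in
theorem famOn_congr {G G' : T → Dat C A.N n} (f : FamOn A l G V) (e : ∀ s ∈ V, G' s = G s) :
    FamOn A l G' V :=
  ⟨fun s a => e s a ▸ f.good s a, f.lam.congr fun s a => by rw [e s a],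
    f.x.congr fun s a => by rw [e s a], f.R.congr fun s a => by rw [e s a],
    fun i k => (f.g i k).congr fun p a => by rw [e _ a.1],
    fun i => ((f.a i).congr fun p a => by rw [e _ a.1]).mono fun p a => ⟨a.1, e _ a.1 ▸ a.2⟩,
    fun i => ((f.σ i).congr fun p a => by rw [e _ a.1]).mono fun p a => ⟨a.1, e _ a.1 ▸ a.2⟩⟩

/-- **the transformation of a family at a moving point** -/
theorem HTy.core (h : HTy τ o j κ) (hn : 2 ≤ n) (f : FamOn (A.res r h1 h2) l (fun s => (F s).1) V)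
    (hV : V ∈ 𝓝 s₀) (om : ∀ s, (F s).pt ∈ Om A l τ j)
    (or : ∀ s, y s = (F s).pt.x ∨ (F s).pt.lam = 0) (ad : ∀ s, AdM o (F s).pt (y s) (t s))
    (cy : ContinuousOn y V) (ct : ∀ r h1 h2 (i : Fin A.N), ContinuousOn
      (fun s => nf (A.res r h1 h2) (F s).1.x (y s) i * t s i)
      {s | s ∈ V ∧ y s ∈ ((A.res r h1 h2).e i).source}) :
    ∃ (r : ℝ) (h1 : 1 < r) (h2 : r ≤ A.R), ∃ W ∈ 𝓝 s₀, ∃ F' : T → Ob A l τ,
      FamOn (A.res r h1 h2) l (fun s => (F s).1) W ∧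
      FamOn (A.res r h1 h2) l (fun s => (F' s).1) W ∧ ContinuousOn (fun s => hs o (F s).1.R) W ∧
      HF (A.res r h1 h2) l o (fun s => (F s).1.act (hs o (F s).1.R)) W y t ∧
      ∀ s ∈ W, (F' s).pt = psi o (y s) (t s) (F s).pt ∧
        Hk (A.res r h1 h2) o ((F s).1.act (hs o (F s).1.R)) (F' s).1 (y s) (t s)
          (uz (A.res r h1 h2) ((F s).1.act (hs o (F s).1.R)) (y s) (t s)) := by
  classical
  obtain ⟨r', a1, a2, a3, a4⟩ := ex_rad A (F s₀).1.x (y s₀) h1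
  have a5 := a2.trans_le h2
  obtain ⟨V', b, b'⟩ := ((((f.x.continuousAt hV).eventually (cm_ev a1 a5 a3)).and
    ((cy.continuousAt hV).eventually (cm_ev a1 a5 a4))).and hV).exists_mem
  have m : V' ⊆ V := fun s a => (b' s a).2
  have f' := FamOn.sub (FamOn.mono f a1 a2.le) m
  have nr := fun s => h.nr (F s).2.2 (om_pt.1 (om s)).2 (om_pt.1 (om s)).1
  have ch : ContinuousOn (fun s => hs o (F s).1.R) V := continuousOn_const.add
    (continuousOn_const.sub fun s a => tendsto_sp (nr s).smp (f.R s a)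
      ((c_oo o).comp_continuousOn f.R s a))
  have H : HF (A.res r' a1 a5.le) l o (fun s => (F s).1.act (hs o (F s).1.R)) V' y t :=
    ⟨FamOn.act f' (ch.mono m) fun s _ =>
      (h.spl (F s).2.2 (nr s).smp).2.1 ▸ one_ne_zero,
      fun s a => (h.adm' (f'.good s a) (om s) (or s) (ad s)).2, cm_of fun s a => (b' s a).1.1,
      cm_of fun s a => (b' s a).1.2, cy.mono m,
      fun i => (ct r' a1 a5.le i).mono fun _ a => ⟨m a.1, a.2⟩⟩
  obtain ⟨W, c1, c2, G, c3, c4⟩ := H.ex b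
  have ob : ∀ s ∈ W, IsOb A l τ.q (G s) := fun s a =>
    have c := (om_pt (z := osp h (F s) (om s))).1 ((osp_pt h (F s) (om s)).symm ▸ om s)
    h.ob hn (c4 s a) (c3.good s a) (osp h (F s) (om s)).2.2 c.1 c.2
  obtain ⟨F', e⟩ : ∃ F' : T → Ob A l τ, ∀ s (a : s ∈ W), F' s = ⟨G s, ob s a⟩ :=
    ⟨fun s => if a : s ∈ W then ⟨G s, ob s a⟩ else F s, fun s a => dif_pos a⟩
  refine ⟨r', a1, a5.le, W, c1, F', FamOn.sub f' c2, ?_, ch.mono (c2.trans m), H.sub c2,
    fun s a => ?_⟩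
  · exact famOn_congr c3 fun s a => congrArg Subtype.val (e s a)
  · rw [e s a]
    exact ⟨(h.rel hn (om s) (or s) (ad s) _).1 ⟨osp h (F s) (om s), _, osp_pt .., rfl, r', a1,
      a5.le, _, H.f.good s (c2 a), c3.good s a, c4 s a⟩, c4 s a⟩

/-- continuous maps into the moduli space come from families -/
theorem lift (k : KUR n A l) {μ : T → Mod A l τ} (hμ : Continuous μ) (s₀ : T) :
    ∃ F : T → Ob A l τ, (∀ s, (F s).pt = μ s) ∧ FamAt A l (fun s => (F s).1) s₀ := by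
  classical
  obtain ⟨K, hK⟩ := k τ (μ s₀)
  refine ⟨fun s => if a : μ s ∈ K.e.source then cob K _ a else (μ s).rep, fun s => ?_, K.r, K.h1,
    K.h2, μ ⁻¹' K.e.source, hμ.continuousAt (K.e.open_source.mem_nhds hK),
    famOn_congr (FamOn.comp (famOn_chart K) hμ.continuousOn fun _ a => a) fun s a => ?_⟩
  · by_cases a : μ s ∈ K.e.source
    · simp only [dif_pos a, cob_pt]
    · simp only [dif_neg a, Mod.pt_rep]
  · simp only [dif_pos (show μ s ∈ K.e.source from a)]; rfl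

omit [T2Space C] in
theorem nf_self (x : C) (i : Fin A.N) : nf A x x i = 1 := if_pos rfl

/-- the transformation at the pole, in families -/
theorem HTy.fam (h : HTy τ o j κ) (hn : 2 ≤ n) (f : FamAt A l (fun s => (F s).1) s₀)
    (om : ∀ s, (F s).pt ∈ Om A l τ j) :
    ∃ (r : ℝ) (h1 : 1 < r) (h2 : r ≤ A.R), ∃ W ∈ 𝓝 s₀, ∃ F' : T → Ob A l τ,
      FamOn (A.res r h1 h2) l (fun s => (F s).1) W ∧
      FamOn (A.res r h1 h2) l (fun s => (F' s).1) W ∧ ContinuousOn (fun s => hs o (F s).1.R) W ∧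
      HF (A.res r h1 h2) l o (fun s => (F s).1.act (hs o (F s).1.R)) W (fun s => (F s).1.x)
        (fun s _ => (F s).1.R o o) ∧
      ∀ s ∈ W, (F' s).pt = phi o (F s).pt ∧
        Hk (A.res r h1 h2) o ((F s).1.act (hs o (F s).1.R)) (F' s).1 (F s).1.x
          (fun _ => (F s).1.R o o) (uz (A.res r h1 h2) ((F s).1.act (hs o (F s).1.R)) (F s).1.x
            fun _ => (F s).1.R o o) := by
  obtain ⟨r, h1, h2, V, hV, f⟩ := f
  have e : ∀ s, (F s).pt.rep.1.R o o = (F s).1.R o o := fun s => h.oo (Mod.pt_rep _)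
  simp only [phi, e]
  exact h.core (y := fun s => (F s).1.x) (t := fun s _ => (F s).1.R o o) hn f hV om
    (fun s => Or.inl rfl) (fun s => e s ▸ adm_pole (F s).pt) f.x
    fun r h1 h2 i => (((c_oo o).comp_continuousOn f.R).mono fun _ a => a.1).congr fun s _ =>
      (congrArg (· * _) (nf_self (A := A.res r h1 h2) _ i)).trans (one_mul _)

end fam

theorem phi_ok (hn : 2 ≤ n) (k : KUR n A l) (h : HTy τ o j κ) : PHI A l τ o j κ := by
  have rel : ∀ m ∈ Om A l τ j, ∀ m', HkM o m m.x (fun _ => m.rep.1.R o o) m' ↔ m' = phi o m :=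
    fun m a => h.rel hn a (Or.inl rfl) (adm_pole m)
  have η := fun m a => ((rel m a _).2 rfl).inv.2.2
  refine ⟨rel, fun m => (psi_inv m).1, fun m => (psi_inv m).2, η, h.one hn, fun m a => ⟨?_, ?_⟩,
    continuousOn_iff_continuous_domRestrict.2 (continuous_iff_continuousAt.2 fun s₀ => ?_),
    fun m a h0 => ((rel m a _).2 rfl).fib h0⟩
  · rw [phi, (psi_inv m).1]; exact a.1
  · rw [η m a, Mod.η, ← map_smul, ← map_add, h.im hn a.1]; exact a.2
  · obtain ⟨F, a, b⟩ := lift k (continuous_subtype_val (p := (· ∈ Om A l τ j))) s₀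
    obtain ⟨r, h1, h2, W, c, F', -, d, -, -, e⟩ := h.fam hn b fun s => a s ▸ s.2
    exact (FamAt.continuousAt ⟨r, h1, h2, W, c, d⟩).congr
      (eventually_of_mem c fun s hs => (e s hs).1.trans (congrArg _ (a s)))

theorem fam_ok (hn : 2 ≤ n) (h : HTy τ o j κ) : FAM A l τ o j := fun T _ F t f om => by
  obtain ⟨r, h1, h2, W, c, F', a, b, d, e, g⟩ := h.fam hn f om
  have s := fun s => h.spl (F s).2.2
    (h.nr (F s).2.2 (om_pt.1 (om s)).2 (om_pt.1 (om s)).1).smp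
  exact ⟨r, h1, h2, W, c, _, F', fun s => uz (A.res r h1 h2) ((F s).1.act (hs o (F s).1.R))
    (F s).1.x fun _ => (F s).1.R o o, a, b, d, e.uz, fun p hp =>
    ⟨(s p).1, (s p).2.1, (g p hp).1, (g p hp).2⟩⟩

theorem psi_ok (hn : 2 ≤ n) (k : KUR n A l) (h : HTy τ o j κ) : PSI A l τ o j := by
  refine ⟨fun m a h0 y t b => h.rel hn a (Or.inr h0) b, fun m _ h0 y t m' b => b.fib h0,
    fun T _ μ y t x hμ hy a ct => continuous_iff_continuousAt.2 fun s₀ => ?_⟩
  obtain ⟨F, b, r, h1, h2, V, hV, f⟩ := lift k hμ s₀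
  have ex : ∀ s, (F s).1.x = x := fun s => by rw [← x_pt, b, (a s).2.2.1]
  obtain ⟨r, h1, h2, W, c, F', -, d, -, -, e⟩ := h.core hn f hV (fun s => b s ▸ (a s).1)
    (fun s => Or.inr (b s ▸ (a s).2.1)) (fun s => b s ▸ (a s).2.2.2) hy.continuousOn
    fun r h1 h2 i => by
      simp only [ex]
      by_cases e : x ∈ ((A.res r h1 h2).e i).source
      · refine ((ct i).mono fun _ a => a.2.1).congr fun s _ => ?_
        simp only [nf, sg_mem e, sg_mem e.1]
        rfl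
      · have n0 : ∀ s, y s ∈ ((A.res r h1 h2).e i).source → y s ≠ x := fun s a b => e (b ▸ a)
        refine (((ct i).mono fun _ a => a.2.1).div (((hl_sg x x i).continuousOn).comp
          (c_e hy.continuousOn fun _ a => a.2.1) fun _ a => map_src a.2.1)
          fun s a => sg_ne (mem_off a.2.1 (n0 s a.2))).congr fun s a => ?_
        simp only [nf, if_neg (n0 s a.2), sg_not e, Pi.div_apply, Function.comp, one_mul]
        rw [mul_div_cancel_left₀ _ (sg_ne (mem_off a.2.1 (n0 s a.2)))]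
  exact (FamAt.continuousAt ⟨r, h1, h2, W, c, d⟩).congr
    (eventually_of_mem c fun s hs => (e s hs).1.trans (congrArg _ (b s)))

end Vale.Agent.P275HE
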