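import Vale.Agent.P275HE.Good
import Vale.Agent.P275GC.Defs
import Mathlib.Topology.LocallyConstant.Basic

/-!
# P275, block HE: the set of simple points of a spectral curve is connected
-/

open scoped Topology
open Set Filter Polynomial Metric

noncomputable section

namespace Vale.Agent.P275HE

open Vale.Agent.P275GC

variable {Cv : Type} [TopologicalSpace Cv] {A : At Cv}

/-- a locally constant function on a connected curve is constant -/
theorem fn_const [PreconnectedSpace Cv] {F : Type} {u : Fin A.N → ℂ → F} (h1 : A.Fn u)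
    (h2 : ∀ i, ∀ z ∈ ball (0 : ℂ) A.R, ∀ᶠ w in 𝓝 z, u i w = u i z) {i j : Fin A.N} {z w : ℂ}
    (hz : z ∈ ball (0 : ℂ) A.R) (hw : w ∈ ball (0 : ℂ) A.R) : u i z = u j w := by
  choose c hc using A.cov
  have e : ∀ x k, x ∈ (A.e k).source → u (c x) (A.e (c x) x) = u k (A.e k x) := fun x k hx => by
    rw [h1 _ k _ (At.mem_O (hc x).1 hx), At.tr_e (hc x).1]
  have l : IsLocallyConstant fun x => u (c x) (A.e (c x) x) := by
    refine (IsLocallyConstant.iff_eventually_eq _).2 fun x => ?_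
    filter_upwards [(A.e (c x)).open_source.mem_nhds (hc x).1,
      ((A.e (c x)).continuousAt (hc x).1).eventually (h2 _ _ (At.map_src (hc x).1))] with y a b
    rw [e y _ a, b]
  have := l.apply_eq_of_preconnectedSpace ((A.e i).symm z) ((A.e j).symm w)
  rwa [e _ i (At.map_tgt hz), e _ j (At.map_tgt hw), At.rinv hz, At.rinv hw] at this

theorem tr_punct {i j : Fin A.N} {z : ℂ} (h : z ∈ A.O i j) :
    Tendsto (A.tr i j) (𝓝[≠] z) (𝓝[≠] (A.tr i j z)) := by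
  refine tendsto_nhdsWithin_iff.2
    ⟨(At.an_tr h).continuousAt.tendsto.mono_left nhdsWithin_le_nhds, ?_⟩
  filter_upwards [self_mem_nhdsWithin, mem_nhdsWithin_of_mem_nhds (At.O_nhds h)] with w a b e
  exact a (by rw [mem_singleton_iff, ← At.tr_inv b, mem_singleton_iff.1 e, At.tr_inv h])

/-- spectral data: `q i z` is the polynomial whose roots lie in the fibre of the line bundle `l`;
every section of `l` vanishes at the point `(i₀, z₀)`, where the proper partial sums of the roots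
do not vanish -/
structure Spc (A : At Cv) (n : ℕ) (l : Fin A.N → Fin A.N → ℂ → ℂ) (q : Fin A.N → ℂ → ℂ[X])
    (i₀ : Fin A.N) (z₀ : ℂ) : Prop where
  cc : A.Cc l
  an : ∀ i, ∀ z ∈ ball (0 : ℂ) A.R, An n (q i) z
  tr : ∀ i j, ∀ z ∈ A.O i j, ∀ t, Smp (q i z) (l i j z * t) ↔ Smp (q j (A.tr i j z)) t
  mem : z₀ ∈ ball (0 : ℂ) A.R
  res : ∀ σ : Fin A.N → ℂ → ℂ, A.Hl σ → A.Sec l σ → σ i₀ z₀ = 0
  gen : ∀ M ≤ (q i₀ z₀).roots, M ≠ 0 → M.sum = 0 → M.card = n

variable {n : ℕ} {l : Fin A.N → Fin A.N → ℂ → ℂ} {q : Fin A.N → ℂ → ℂ[X]} {i₀ : Fin A.N} {z₀ : ℂ}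

/-- a nonempty open and closed set of simple points contains all the roots generically -/
theorem Spc.full [PreconnectedSpace Cv] (h : Spc A n l q i₀ z₀) {S : Fin A.N → ℂ → ℂ → Prop}
    {B : Fin A.N → ℂ → Prop} (hB : ∀ i, ∀ z ∈ ball (0 : ℂ) A.R, ∀ᶠ w in 𝓝[≠] z, B i w)
    (inv : ∀ i j, ∀ z ∈ A.O i j, B i z → ∀ t, Smp (q j (A.tr i j z)) t →
      (S i z (l i j z * t) ↔ S j (A.tr i j z) t))
    (lc : ∀ i, ∀ z ∈ ball (0 : ℂ) A.R, B i z → LC (q i) (S i) z) {i : Fin A.N} {z t : ℂ}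
    (hz : z ∈ ball (0 : ℂ) A.R) (ht : Smp (q i z) t)
    (hS : ∀ᶠ v : ℂ × ℂ in 𝓝 (z, t), Smp (q i v.1) v.2 → S i v.1 v.2) (j : Fin A.N) {w : ℂ}
    (hw : w ∈ ball (0 : ℂ) A.R) : ∀ᶠ x in 𝓝[≠] w, (sel (q j x) (S j x)).card = n := by
  classical
  have lc' : ∀ i, ∀ z ∈ ball (0 : ℂ) A.R, ∀ᶠ w in 𝓝[≠] z, LC (q i) (S i) w := fun i z hz => by
    filter_upwards [hB i z hz, mem_nhdsWithin_of_mem_nhds (isOpen_ball.mem_nhds hz)] with w a b
    exact lc i w b a
  have x1 := fun k i z hz => (h.an i z hz).xt_ps (lc' i z hz) k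
  have x2 := fun i z hz => (h.an i z hz).xt_card (lc' i z hz)
  have tp : ∀ k i j, ∀ z ∈ A.O i j, B i z →
      ps (q i) (S i) k z = l i j z ^ k * ps (q j) (S j) k (A.tr i j z) := by
    intro k i j z hz hb
    have m1 := (h.an i z hz.1).mon
    have m2 := (h.an j _ (At.tr_ball hz)).mon
    rw [ps, ps, Finset.mul_sum]
    refine (Finset.sum_bij (fun t _ => l i j z * t) (fun t ht => ?_) (fun t _ t' _ e => ?_)
      (fun s hs => ?_) fun _ _ => (mul_pow _ _ _).symm).symm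
    · obtain ⟨a, b⟩ := (mem_sel m2).1 ht
      exact (mem_sel m1).2 ⟨(h.tr i j z hz t).2 a, (inv i j z hz hb t a).2 b⟩
    · exact mul_left_cancel₀ (h.cc.ne hz) e
    · obtain ⟨a, b⟩ := (mem_sel m1).1 hs
      have e : l i j z * (s / l i j z) = s := mul_div_cancel₀ _ (h.cc.ne hz)
      have c := (h.tr i j z hz _).1 (e.symm ▸ a)
      exact ⟨_, (mem_sel m2).2 ⟨c, (inv i j z hz hb _ c).1 (e.symm ▸ b)⟩, e⟩
  have tl : ∀ k i, ∀ z ∈ ball (0 : ℂ) A.R,
      Tendsto (ps (q i) (S i) k) (𝓝[≠] z) (𝓝 (xt (ps (q i) (S i) k) z)) := fun k i z hz =>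
    ((x1 k i z hz).1.continuousAt.tendsto.mono_left nhdsWithin_le_nhds).congr' (x1 k i z hz).2.symm
  have tx : ∀ k i j, ∀ z ∈ A.O i j,
      xt (ps (q i) (S i) k) z = l i j z ^ k * xt (ps (q j) (S j) k) (A.tr i j z) := by
    intro k i j z hz
    refine tendsto_nhds_unique (tl k i z hz.1) (Tendsto.congr' ?_
      ((((h.cc.an hz).continuousAt.tendsto.mono_left nhdsWithin_le_nhds).pow k).mul
        ((tl k j _ (At.tr_ball hz)).comp (tr_punct hz))))
    filter_upwards [mem_nhdsWithin_of_mem_nhds (At.O_nhds hz), hB i z hz.1] with w hw hb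
    exact (tp k i j w hw hb).symm
  have cst : ∀ {i j z w}, z ∈ ball (0 : ℂ) A.R → w ∈ ball (0 : ℂ) A.R →
      xt (ps (q i) (S i) 0) z = xt (ps (q j) (S j) 0) w := by
    intro i j z w hz hw
    refine fn_const (u := fun i => xt (ps (q i) (S i) 0))
      (fun i j z hz => by simpa using tx 0 i j z hz) (fun i z hz => ?_) hz hw
    have : ∀ᶠ w in 𝓝[≠] z, xt (ps (q i) (S i) 0) w = xt (ps (q i) (S i) 0) z := by
      filter_upwards [(x1 0 i z hz).2, x2 i z hz] with w a b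
      rw [← a, ps_zero, b]
    rw [← nhdsNE_sup_pure, eventually_sup]
    exact ⟨this, rfl⟩
  obtain ⟨m, hm⟩ : ∃ m : ℕ, xt (ps (q i₀) (S i₀) 0) z₀ = m :=
    (x2 i₀ z₀ h.mem).exists.imp' _ fun _ h => h.symm
  have cm : ∀ i, ∀ z ∈ ball (0 : ℂ) A.R, ∀ᶠ x in 𝓝[≠] z, (sel (q i x) (S i x)).card = m :=
    fun i z hz => (x2 i z hz).mono fun x hx => by
      rw [cst hz h.mem, hm] at hx
      exact_mod_cast hx
  have m0 : m ≠ 0 := by
    obtain ⟨τ, a, b, c, -⟩ := (h.an i z hz).ift ht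
    have s := (show Tendsto (fun x => (x, τ x)) (𝓝 z) (𝓝 (z, t)) from
      tendsto_id.prodMk_nhds (b ▸ a.continuousAt.tendsto)).eventually hS
    obtain ⟨x, d, e, f, g⟩ := ((cm i z hz).and ((c.and (s.and
      (h.an i z hz).1)).filter_mono nhdsWithin_le_nhds)).exists
    rw [← d]
    exact (Finset.card_pos.2 ⟨_, (mem_sel g).2 ⟨e, f e⟩⟩).ne'
  obtain ⟨M, h1, h2, h3⟩ := (h.an i₀ z₀ h.mem).sub (T := fun w => (sel (q i₀ w) (S i₀ w)).val)
    ((cm i₀ z₀ h.mem).mono fun w hw => ⟨sel_le _ _, hw⟩)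
    ((tl 1 i₀ z₀ h.mem).congr fun w => by simp [ps])
  have h4 := h.res (fun i => xt (ps (q i) (S i) 1))
    (fun i z hz => (x1 1 i z hz).1.differentiableAt.differentiableWithinAt)
    (fun i j z hz => by simpa using tx 1 i j z hz)
  rw [← h.gen M h1 (fun e => m0 (by rw [← h2, e]; rfl)) (h3.trans h4), h2]
  exact cm j w hw

theorem all_of_card {p : ℂ[X]} (hp : Mon n p) {S : ℂ → Prop} (h : (sel p S).card = n) :
    (∀ t, Smp p t → S t) ∧ ∃ t : Fin n → ℂ, Function.Injective t ∧ p = ∏ i, (X - C (t i)) := by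
  have e : (sel p S).val = p.roots := Multiset.eq_of_le_of_card_le (sel_le p S)
    ((card_roots' p).trans (hp.2.trans h.symm).le)
  refine ⟨fun t ht => ((mem_sel hp).1 ?_).2, ?_⟩
  · rw [← Finset.mem_val, e]
    exact (mem_roots hp.1.ne_zero).2 ht.1
  · obtain ⟨t, ht⟩ := hp.enum
    refine ⟨t, ?_, ht⟩
    have := (sel p S).nodup
    rw [e, ht, roots_enum] at this
    exact fun a b hab => Multiset.inj_on_of_nodup_map this a (by simp) b (by simp) hab

/-- the spectral curve is reduced -/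
theorem Spc.red [PreconnectedSpace Cv] (h : Spc A n l q i₀ z₀) {i : Fin A.N} {z t : ℂ}
    (hz : z ∈ ball (0 : ℂ) A.R) (ht : Smp (q i z) t) (j : Fin A.N) {w : ℂ}
    (hw : w ∈ ball (0 : ℂ) A.R) :
    ∀ᶠ x in 𝓝[≠] w, ∃ t : Fin n → ℂ, Function.Injective t ∧ q j x = ∏ i, (X - C (t i)) := by
  filter_upwards [h.full (S := fun _ _ _ => True) (B := fun _ _ => True)
    (fun _ _ _ => Eventually.of_forall fun _ => trivial) (fun _ _ _ _ _ _ _ => Iff.rfl)
    (fun _ _ _ _ _ _ => Eventually.of_forall fun _ _ => Iff.rfl) hz ht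
    (Eventually.of_forall fun _ _ => trivial) j hw,
    (h.an j w hw).1.filter_mono nhdsWithin_le_nhds] with x a b
  exact (all_of_card b a).2

/-- **the set of simple points of the spectral curve is connected** -/
theorem Spc.conn [PreconnectedSpace Cv] (h : Spc A n l q i₀ z₀) {Y : Type}
    {Ψ : Fin A.N → ℂ → ℂ → Y} {B : Fin A.N → ℂ → Prop}
    (hB : ∀ i, ∀ z ∈ ball (0 : ℂ) A.R, ∀ᶠ w in 𝓝[≠] z, B i w)
    (inv : ∀ i j, ∀ z ∈ A.O i j, B i z → ∀ t, Smp (q j (A.tr i j z)) t →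
      Ψ i z (l i j z * t) = Ψ j (A.tr i j z) t)
    (lc : ∀ i, ∀ z ∈ ball (0 : ℂ) A.R, B i z → ∀ t, Smp (q i z) t →
      ∀ᶠ v : ℂ × ℂ in 𝓝 (z, t), Smp (q i v.1) v.2 → Ψ i v.1 v.2 = Ψ i z t)
    {i j : Fin A.N} {z t w s : ℂ} (hz : z ∈ ball (0 : ℂ) A.R) (ht : Smp (q i z) t)
    (hw : w ∈ ball (0 : ℂ) A.R) (hs : Smp (q j w) s)
    (l1 : ∀ᶠ v : ℂ × ℂ in 𝓝 (z, t), Smp (q i v.1) v.2 → Ψ i v.1 v.2 = Ψ i z t)
    (l2 : ∀ᶠ v : ℂ × ℂ in 𝓝 (w, s), Smp (q j v.1) v.2 → Ψ j v.1 v.2 = Ψ j w s) :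
    Ψ j w s = Ψ i z t := by
  have f := h.full (S := fun k x y => Ψ k x y = Ψ i z t) hB
    (fun a b x hx hb y hy => by rw [inv a b x hx hb y hy])
    (fun a x hx hb y hy => (lc a x hx hb y hy).mono fun v hv b => by simp only [hv b]) hz ht l1 j hw
  obtain ⟨τ, a, b, c, -⟩ := (h.an j w hw).ift hs
  have d := (show Tendsto (fun x => (x, τ x)) (𝓝 w) (𝓝 (w, s)) from
    tendsto_id.prodMk_nhds (b ▸ a.continuousAt.tendsto)).eventually l2
  obtain ⟨x, e, g, k, m⟩ := (f.and ((c.and (d.and (h.an j w hw).1)).filter_mono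
    nhdsWithin_le_nhds)).exists
  rw [← k g]
  exact (all_of_card m e).1 _ g

end Vale.Agent.P275HE
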