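import Vale.Agent.P275HE.Ob
import Vale.Agent.P275HE.Spec

/-!
# P275, block HE: transformations at a moving point of the spectral curve, definitions
-/

set_option linter.unusedSectionVars false

open scoped Topology Matrix.Norms.Operator
open Set Filter Metric Matrix

noncomputable section

namespace Vale.Agent.P275HE

open Vale.Agent.P275GC Vale.Agent.P275MO
open Vale.Agent.P275NA (Fm Cy Mn)

variable {C : Type} [TopologicalSpace C] {n : ℕ} {A : At C} {l : Cy A ℂ} {τ : Ty n}

/-- admissible points `(y, t)` of the spectral curve of `m` -/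
structure AdM (o : Fin n) (m : Mod A l τ) (y : C) (t : Fin A.N → ℂ) : Prop where
  pole : y = m.x → ∀ i, y ∈ (A.e i).source → t i = m.rep.1.R o o
  smp : y ≠ m.x → ∃ i, y ∈ (A.e i).source ∧ ‖A.e i y‖ < 1 ∧
    Smp (m.rep.1.a i (A.e i y)).charpoly (t i)
  cmp : y ≠ m.x → ∀ i j, y ∈ (A.e i).source → y ∈ (A.e j).source →
    t i = A.d i j (A.e i y) * t j

variable (A l)

/-- the transformation at a moving point, for Higgs bundles with a fixed pole -/
structure PSI (τ : Ty n) (o : Fin n) (j : Fin τ.m) : Prop where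
  rel : ∀ m ∈ Om A l τ j, m.lam = 0 → ∀ y t, AdM o m y t →
    ∀ m', HkM o m y t m' ↔ m' = psi o y t m
  fib : ∀ m ∈ Om A l τ j, m.lam = 0 → ∀ y t m', HkM o m y t m' → m' ∈ Fb m
  cont : ∀ (T : Type) [TopologicalSpace T] (μ : T → Mod A l τ) (y : T → C)
    (t : T → Fin A.N → ℂ) (x : C), Continuous μ → Continuous y →
    (∀ s, μ s ∈ Om A l τ j ∧ (μ s).lam = 0 ∧ (μ s).x = x ∧ AdM o (μ s) (y s) (t s)) →
    (∀ i, ContinuousOn (fun s => nf A x (y s) i * t s i) {s | y s ∈ (A.e i).source}) →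
    Continuous fun s => psi o (y s) (t s) (μ s)

/-- the composite of the transformations along the `n` eigenlines at an unramified point is the
identity -/
def CMPS (τ : Ty n) (o : Fin n) (j : Fin τ.m) : Prop := ∀ (μ : ℕ → Mod A l τ) (c : C)
  (t : Fin n → Fin A.N → ℂ) (i : Fin A.N), μ 0 ∈ Om A l τ j → (μ 0).lam = 0 → c ≠ (μ 0).x →
  c ∈ (A.e i).source → ‖A.e i c‖ < 1 → (Function.Injective fun k => t k i) →
  (∀ k, Smp ((μ 0).rep.1.a i (A.e i c)).charpoly (t k i)) →
  (∀ k : Fin n, HkM o (μ k) c (t k) (μ (k + 1))) → μ n = μ 0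

omit [TopologicalSpace C] in
theorem smul_ext {f : ℂ → Mn n} {y : ℂ} (w : ℂ) (h : DifferentiableAt ℂ f w) :
    deriv (fun v => (v - y) • f v) w = (w - y) • deriv f w + f w := by
  have := (((hasDerivAt_id w).sub_const y).smul h.hasDerivAt).deriv
  rw [one_smul] at this
  exact this

variable {A l}

/-- the local structure of a transformation -/
theorem Hk.lh [T2Space C] {z z' : Dat C A.N n} {y : C} {o : Fin n} {t : Fin A.N → ℂ}
    {u : Fm A (Mn n)} {i : Fin A.N} (k : Hk A o z z' y t u) (g' : Good A l z')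
    (h : y = z.x ∨ z.lam = 0) (hy : y ∈ (A.e i).source) :
    ∃ W, LH n z.lam (A.e i y) (nf A z.x y i * t i) (bz A z i) W ∧
      ∀ᶠ w in 𝓝[≠] (A.e i y), (w - A.e i y) • u i w = W w := by
  obtain ⟨U, h1, h2⟩ := k.loc i hy
  have d : ∀ w ∈ off A y i, DifferentiableAt ℂ (u i) w := fun w hw =>
    (k.hol i).differentiableAt ((P275MB.off_open y i).mem_nhds hw)
  obtain ⟨W, a, b, c⟩ := ext_of (f := fun w => (w - A.e i y) • u i w)
    ((P275MB.off_ev hy).mono fun w hw =>
    (differentiableAt_id.sub_const _).smul (d w hw)) h1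
  refine ⟨W, ⟨a, ⟨fun w => bz A z' i w - z.lam • 1,
    (bz_an g' (At.map_src hy) i).sub analyticAt_const, ?_⟩,
    ⟨fun _ => 1, analyticAt_const, one_ne_zero, ?_⟩, fun v hv => ?_⟩, c⟩
  · filter_upwards [c, deriv_punct c, P275MB.off_ev hy, ev_ne' (At.map_src hy) i z.x]
      with w e1 e2 e3 e4
    have e5 := k.con i w e4 e3.2
    have e6 := lam_sg h hy w
    rw [← e2, ← e1, smul_ext w (d w e3), bz_off e4, bz_off (k.x ▸ e4), k.x]
    simp only [smul_mul_assoc, mul_smul_comm, sub_mul, one_mul]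
    have e7 : (z.lam * (w - A.e i y)) • deriv (u i) w =
        (z.lam * A.sg z.x z.x i w) • deriv (u i) w := by rw [e6]
    linear_combination (norm := module) ((w - A.e i y) * A.sg z.x z.x i w) • e5 +
      (w - A.e i y) • e7
  · filter_upwards [c, P275MB.off_ev hy] with w e1 e2
    rw [← e1, det_smul, k.det i w e2, Fintype.card_fin]
  · rw [b] at hv
    rw [bz_val hy, smul_mulVec, h2 v hv, mul_smul]

end Vale.Agent.P275HE
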