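import Mathlib.Analysis.Calculus.ImplicitContDiff
import Mathlib.Analysis.Polynomial.CauchyBound
import Mathlib.RingTheory.MvPolynomial.Symmetric.FundamentalTheorem
import Mathlib.RingTheory.Polynomial.Vieta
import Mathlib.Analysis.Complex.Polynomial.Basic
import Mathlib.Analysis.Analytic.IsolatedZeros
import Mathlib.Analysis.Complex.CauchyIntegral
import Mathlib.Analysis.Calculus.Deriv.Polynomial
import Mathlib.Topology.Algebra.MvPolynomial
import Mathlib.Analysis.Analytic.Polynomial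

/-!
# P275, block HE: roots of monic polynomials which depend holomorphically on a parameter
-/

open scoped Topology ContDiff
open Set Filter Polynomial

noncomputable section

namespace Vale.Agent.P275HE

/-- simple roots -/
def Smp (p : ℂ[X]) (t : ℂ) : Prop := p.eval t = 0 ∧ p.derivative.eval t ≠ 0

/-- monic of degree `n` -/
def Mon (n : ℕ) (p : ℂ[X]) : Prop := p.Monic ∧ p.natDegree = n

variable {n : ℕ}

theorem Mon.enum {p : ℂ[X]} (h : Mon n p) : ∃ t : Fin n → ℂ, p = ∏ i, (X - C (t i)) := by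
  have hs : p.Splits := IsAlgClosed.splits p
  have hc : p.roots.card = n := by rw [← h.2]; exact splits_iff_card_roots.1 hs
  obtain ⟨l, hl⟩ := Quot.exists_rep p.roots
  have hl' : (l : Multiset ℂ) = p.roots := hl
  have hn : l.length = n := by rw [← hc, ← hl']; rfl
  subst hn
  refine ⟨l.get, ?_⟩
  have e := hs.eq_prod_roots_of_monic h.1
  rw [e, ← hl', Finset.prod_eq_multiset_prod]
  congr 1
  rw [← Function.comp_def (fun a => X - C a) l.get, ← Multiset.map_map]
  congr 1
  simp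

theorem roots_enum {ι : Type} [Fintype ι] (t : ι → ℂ) :
    (∏ i, (X - C (t i))).roots = Finset.univ.val.map t := by
  rw [Finset.prod_eq_multiset_prod, ← Function.comp_def (fun a => X - C a) t, ← Multiset.map_map]
  exact roots_multiset_prod_X_sub_C _

theorem eval_enum {ι : Type} [Fintype ι] (t : ι → ℂ) (y : ℂ) :
    (∏ i, (X - C (t i))).eval y = ∏ i, (y - t i) := by
  simp [eval_prod]

theorem der_enum {ι : Type} [Fintype ι] [DecidableEq ι] (t : ι → ℂ) (i : ι) :
    (∏ j, (X - C (t j))).derivative.eval (t i) = ∏ j ∈ Finset.univ.erase i, (t i - t j) := by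
  rw [← Finset.mul_prod_erase _ _ (Finset.mem_univ i), derivative_mul]
  simp [eval_prod]

theorem smp_enum {ι : Type} [Fintype ι] (t : ι → ℂ) (y : ℂ) :
    Smp (∏ j, (X - C (t j))) y ↔ ∃ i, t i = y ∧ ∀ j, t j = y → j = i := by
  classical
  constructor
  · rintro ⟨h1, h2⟩
    rw [eval_enum, Finset.prod_eq_zero_iff] at h1
    obtain ⟨i, -, hi⟩ := h1
    obtain rfl : y = t i := sub_eq_zero.1 hi
    refine ⟨i, rfl, fun j hj => by_contra fun hne => h2 ?_⟩
    rw [der_enum]
    exact Finset.prod_eq_zero (Finset.mem_erase.2 ⟨hne, Finset.mem_univ _⟩) (by rw [hj, sub_self])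
  · rintro ⟨i, rfl, hi⟩
    refine ⟨?_, ?_⟩
    · rw [eval_enum]
      exact Finset.prod_eq_zero (Finset.mem_univ i) (sub_self _)
    · rw [der_enum, Finset.prod_ne_zero_iff]
      exact fun j hj h => (Finset.mem_erase.1 hj).1 (hi j (sub_eq_zero.1 h).symm)

theorem Mon.eval_eq {p : ℂ[X]} (h : Mon n p) (y : ℂ) :
    p.eval y = ∑ k ∈ Finset.range (n + 1), p.coeff k * y ^ k := by
  rw [eval_eq_sum_range, h.2]

theorem Mon.der_eq {p : ℂ[X]} (h : Mon n p) (y : ℂ) :
    p.derivative.eval y = ∑ k ∈ Finset.range (n + 1), p.coeff (k + 1) * (k + 1) * y ^ k := by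
  rw [eval_eq_sum_range' (n := n + 1) (by
    have := natDegree_derivative_le p; rw [h.2] at this; omega)]
  simp [coeff_derivative]

theorem Mon.bound {p : ℂ[X]} (h : Mon n p) {M : ℝ} (hM : ∀ k ≤ n, ‖p.coeff k‖ ≤ M) {t : ℂ}
    (ht : p.eval t = 0) : ‖t‖ ≤ M + 1 := by
  have h1 := IsRoot.norm_lt_cauchyBound h.1.ne_zero ht
  have h0 : 0 ≤ M := (norm_nonneg _).trans (hM 0 (Nat.zero_le _))
  have h2 : (p.cauchyBound : ℝ) ≤ M + 1 := by
    rw [cauchyBound, h.1.leadingCoeff, nnnorm_one, div_one, NNReal.coe_add, NNReal.coe_one]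
    gcongr
    have : (Finset.range p.natDegree).sup (fun k => ‖p.coeff k‖₊) ≤ ⟨M, h0⟩ :=
      Finset.sup_le fun k hk => hM k (by rw [← h.2]; exact (Finset.mem_range.1 hk).le)
    exact this
  exact (NNReal.coe_lt_coe.2 h1).le.trans h2

/-- compactness of the roots -/
theorem lim_enum {ι : Type} [Fintype ι] {q : ℕ → ℂ[X]} {p : ℂ[X]} (hp : Mon n p)
    (hq : ∀ k, Mon n (q k)) (hc : ∀ j, Tendsto (fun k => (q k).coeff j) atTop (𝓝 (p.coeff j)))
    (t : ℕ → ι → ℂ) (ht : ∀ k, q k = ∏ i, (X - C (t k i))) :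
    ∃ (φ : ℕ → ℕ) (s : ι → ℂ), StrictMono φ ∧ Tendsto (fun k => t (φ k)) atTop (𝓝 s) ∧
      p = ∏ i, (X - C (s i)) := by
  classical
  have hb : ∀ j, ∃ M : ℝ, ∀ k, ‖(q k).coeff j‖ ≤ M := fun j => by
    obtain ⟨M, hM⟩ := (hc j).norm.bddAbove_range
    exact ⟨M, fun k => hM ⟨k, rfl⟩⟩
  choose M hM using hb
  have hb : ∀ k, t k ∈ Metric.closedBall (0 : ι → ℂ) (∑ j ∈ Finset.range (n + 1), |M j| + 1) := by
    intro k
    rw [mem_closedBall_zero_iff, pi_norm_le_iff_of_nonneg (by positivity)]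
    intro i
    refine (hq k).bound (fun j hj => (hM j k).trans ((le_abs_self _).trans ?_)) ?_
    · exact Finset.single_le_sum (f := fun j => |M j|) (fun _ _ => abs_nonneg _)
        (Finset.mem_range.2 (Nat.lt_succ_of_le hj))
    · rw [ht k, eval_enum]
      exact Finset.prod_eq_zero (Finset.mem_univ i) (sub_self _)
  obtain ⟨s, -, φ, hφ, hs⟩ := (isCompact_closedBall _ _).tendsto_subseq hb
  refine ⟨φ, s, hφ, hs, Polynomial.funext fun y => ?_⟩
  have h1 : Tendsto (fun k => (q (φ k)).eval y) atTop (𝓝 (p.eval y)) := by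
    simp only [(hq _).eval_eq, hp.eval_eq]
    exact tendsto_finsetSum _ fun j _ => ((hc j).comp hφ.tendsto_atTop).mul_const _
  have h2 : Tendsto (fun k => (q (φ k)).eval y) atTop (𝓝 (∏ i, (y - s i))) := by
    simp only [ht, eval_enum]
    exact tendsto_finsetProd _ fun i _ => tendsto_const_nhds.sub (tendsto_pi_nhds.1 hs i)
  rw [eval_enum]
  exact tendsto_nhds_unique h1 h2

/-- analytic families -/
def An (n : ℕ) (p : ℂ → ℂ[X]) (z : ℂ) : Prop :=
  (∀ᶠ w in 𝓝 z, Mon n (p w)) ∧ ∀ k, AnalyticAt ℂ (fun w => (p w).coeff k) z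

variable {p : ℂ → ℂ[X]} {z : ℂ}

theorem An.mon (h : An n p z) : Mon n (p z) := h.1.self_of_nhds

theorem An.ev (h : An n p z) : ∀ᶠ w in 𝓝 z, An n p w := by
  have h2 : ∀ᶠ w in 𝓝 z, ∀ k ∈ Finset.range (n + 1), AnalyticAt ℂ (fun w => (p w).coeff k) w :=
    (eventually_all_finset _).2 fun k _ => (h.2 k).eventually_analyticAt
  filter_upwards [h.1.eventually_nhds, h2] with w a b
  refine ⟨a, fun k => ?_⟩
  by_cases hk : k < n + 1
  · exact b k (Finset.mem_range.2 hk)
  · refine (analyticAt_const (v := (0 : ℂ))).congr (a.mono fun x hx => ?_)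
    exact (coeff_eq_zero_of_natDegree_lt (by rw [hx.2]; omega)).symm

theorem An.an_eval (h : An n p z) (t : ℂ) :
    AnalyticAt ℂ (fun v : ℂ × ℂ => (p v.1).eval v.2) (z, t) := by
  have e : (fun v : ℂ × ℂ => ∑ k ∈ Finset.range (n + 1), (p v.1).coeff k * v.2 ^ k) =ᶠ[𝓝 (z, t)]
      fun v : ℂ × ℂ => (p v.1).eval v.2 :=
    (continuous_fst.continuousAt.eventually (show ∀ᶠ w in 𝓝 (z, t).1, _ from h.1)).mono
      fun v hv => (hv.eval_eq _).symm
  refine AnalyticAt.congr ?_ e
  refine Finset.analyticAt_fun_sum _ fun k _ => ?_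
  have a : AnalyticAt ℂ (fun v : ℂ × ℂ => (p v.1).coeff k) (z, t) :=
    AnalyticAt.comp (g := fun w => (p w).coeff k) (f := Prod.fst) (h.2 k) analyticAt_fst
  exact a.fun_mul (analyticAt_snd.fun_pow k)

theorem An.an_der (h : An n p z) (t : ℂ) :
    AnalyticAt ℂ (fun v : ℂ × ℂ => (p v.1).derivative.eval v.2) (z, t) := by
  have e : (fun v : ℂ × ℂ => ∑ k ∈ Finset.range (n + 1),
      (p v.1).coeff (k + 1) * (k + 1) * v.2 ^ k) =ᶠ[𝓝 (z, t)]
      fun v : ℂ × ℂ => (p v.1).derivative.eval v.2 :=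
    (continuous_fst.continuousAt.eventually (show ∀ᶠ w in 𝓝 (z, t).1, _ from h.1)).mono
      fun v hv => (hv.der_eq _).symm
  refine AnalyticAt.congr ?_ e
  refine Finset.analyticAt_fun_sum _ fun k _ => ?_
  have a : AnalyticAt ℂ (fun v : ℂ × ℂ => (p v.1).coeff (k + 1)) (z, t) :=
    AnalyticAt.comp (g := fun w => (p w).coeff (k + 1)) (f := Prod.fst) (h.2 _) analyticAt_fst
  exact (a.fun_mul analyticAt_const).fun_mul (analyticAt_snd.fun_pow k)

/-- a simple root depends holomorphically on the parameter -/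
theorem An.ift (h : An n p z) {t : ℂ} (ht : Smp (p z) t) : ∃ τ : ℂ → ℂ, AnalyticAt ℂ τ z ∧
    τ z = t ∧ (∀ᶠ w in 𝓝 z, Smp (p w) (τ w)) ∧
    ∀ᶠ v : ℂ × ℂ in 𝓝 (z, t), (p v.1).eval v.2 = 0 → v.2 = τ v.1 := by
  have h1 := h.an_eval t
  have h2 : ContDiffAt ℂ ω (fun v : ℂ × ℂ => (p v.1).eval v.2) (z, t) := h1.contDiffAt
  have h3 : fderiv ℂ (fun v : ℂ × ℂ => (p v.1).eval v.2) (z, t) ∘L .inr ℂ ℂ ℂ =
      ContinuousLinearMap.toSpanSingleton ℂ ((p z).derivative.eval t) := by
    have a := h1.differentiableAt.hasFDerivAt.comp t (hasFDerivAt_prodMk_right (𝕜 := ℂ) z t)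
    exact a.unique ((p z).hasDerivAt t).hasFDerivAt
  have h4 : (fderiv ℂ (fun v : ℂ × ℂ => (p v.1).eval v.2) (z, t) ∘L .inr ℂ ℂ ℂ).IsInvertible := by
    rw [h3]
    exact ⟨ContinuousLinearEquiv.unitsEquivAut ℂ (Units.mk0 _ ht.2), by ext; simp⟩
  have h5 := (h2.contDiffAt_implicitFunction (by simp) h4).analyticAt
  have h6 := h2.implicitFunction_apply_self (by simp) h4
  refine ⟨_, h5, h6, ?_, ?_⟩
  · have a : ContinuousAt (fun w => (w, h2.implicitFunction (by simp) h4 w)) z :=
      continuousAt_id.prodMk h5.continuousAt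
    have b : ContinuousAt (fun v : ℂ × ℂ => (p v.1).derivative.eval v.2)
        (z, h2.implicitFunction (by simp) h4 z) := by
      rw [show h2.implicitFunction (by simp) h4 z = t from h6]
      exact (h.an_der t).continuousAt
    have c := (ContinuousAt.comp (f := fun w => (w, h2.implicitFunction (by simp) h4 w)) b
      a).eventually_ne (y := 0) (by
        simp only [Function.comp]
        rw [show h2.implicitFunction (by simp) h4 z = t from h6]; exact ht.2)
    filter_upwards [c, h2.eventually_apply_implicitFunction (by simp) h4] with w d e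
    exact ⟨e.trans ht.1, d⟩
  · filter_upwards [h2.eventually_apply_eq_iff_implicitFunction (by simp) h4] with v hv hz
    exact (hv.1 (hz.trans ht.1.symm)).symm

/-- symmetric polynomials in the roots are holomorphic -/
theorem An.sym (h : An n p z) (P : MvPolynomial (Fin n) ℂ) (hP : P.IsSymmetric) :
    ∃ F : ℂ → ℂ, AnalyticAt ℂ F z ∧
      ∀ w (t : Fin n → ℂ), p w = ∏ i, (X - C (t i)) → F w = MvPolynomial.eval t P := by
  obtain ⟨Q, hQ⟩ := MvPolynomial.esymmAlgHom_fin_surjective ℂ (le_refl n) ⟨P, hP⟩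
  have e : P = MvPolynomial.aeval (fun i : Fin n => MvPolynomial.esymm (Fin n) ℂ (i + 1)) Q :=
    by rw [← MvPolynomial.esymmAlgHom_apply, hQ]
  refine ⟨fun w => MvPolynomial.aeval
    (fun i : Fin n => (-1) ^ (i + 1 : ℕ) * (p w).coeff (n - (i + 1))) Q, ?_, fun w t ht => ?_⟩
  · exact AnalyticAt.aeval_mvPolynomial (fun i => analyticAt_const.mul (h.2 _)) Q
  · rw [e, ← MvPolynomial.coe_aeval_eq_eval]
    show _ = MvPolynomial.aeval t (MvPolynomial.aeval _ Q)
    rw [← AlgHom.comp_apply, MvPolynomial.comp_aeval]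
    refine congrArg (fun u => MvPolynomial.aeval u Q) (funext fun i => ?_)
    have hi : (i : ℕ) + 1 ≤ n := i.2
    rw [MvPolynomial.aeval_esymm_eq_multiset_esymm, ht, Finset.prod_eq_multiset_prod,
      ← Function.comp_def (fun a => X - C a) t, ← Multiset.map_map,
      Multiset.prod_X_sub_C_coeff _ (by simp)]
    simp only [Multiset.card_map, Finset.card_val, Finset.card_univ, Fintype.card_fin]
    rw [Nat.sub_sub_self hi, ← mul_assoc, ← mul_pow]
    simp

/-- the number of distinct roots -/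
def nd (q : ℂ[X]) : ℕ := q.roots.toFinset.card

/-- the subdiscriminants -/
def sd (n r : ℕ) : MvPolynomial (Fin n) ℂ := ∑ f : Fin r → Fin n,
  ∏ a ∈ (Finset.univ : Finset (Fin r)).offDiag, (MvPolynomial.X (f a.1) - MvPolynomial.X (f a.2))

theorem sd_sym (n r : ℕ) : (sd n r).IsSymmetric := fun e => by
  simp only [sd, map_sum, map_prod, map_sub, MvPolynomial.rename_X]
  exact Fintype.sum_equiv (Equiv.arrowCongr (Equiv.refl _) e) _ _ fun f => rfl

theorem nd_enum (t : Fin n → ℂ) : nd (∏ i, (X - C (t i))) = (Finset.univ.image t).card := by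
  rw [nd, roots_enum]
  rfl

theorem sd_term (t : Fin n → ℂ) {r : ℕ} (f : Fin r → Fin n) :
    ∏ a ∈ (Finset.univ : Finset (Fin r)).offDiag, (t (f a.1) - t (f a.2)) ≠ 0 ↔
      Function.Injective (t ∘ f) := by
  rw [Finset.prod_ne_zero_iff]
  constructor
  · intro h a b hab
    by_contra hne
    exact h (a, b) (by simpa using hne) (sub_eq_zero.2 hab)
  · intro h a ha h0
    exact (by simpa using ha : a.1 ≠ a.2) (h (sub_eq_zero.1 h0))

theorem sd_zero (t : Fin n → ℂ) {r : ℕ} (h : (Finset.univ.image t).card < r) :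
    MvPolynomial.eval t (sd n r) = 0 := by
  simp only [sd, map_sum, map_prod, map_sub, MvPolynomial.eval_X]
  refine Finset.sum_eq_zero fun f _ => by_contra fun hne => h.not_ge ?_
  have := Finset.card_le_card_of_injOn (s := Finset.univ) (t := Finset.univ.image t) (t ∘ f)
    (fun a _ => by simp) ((sd_term t f).1 hne).injOn
  simpa using this

theorem sd_ne (t : Fin n → ℂ) : MvPolynomial.eval t (sd n (Finset.univ.image t).card) ≠ 0 := by
  classical
  simp only [sd, map_sum, map_prod, map_sub, MvPolynomial.eval_X]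
  set S := Finset.univ.image t with hS
  have key : ∀ f : Fin S.card → Fin n, Function.Injective (t ∘ f) →
      ∏ a ∈ (Finset.univ : Finset (Fin S.card)).offDiag, (t (f a.1) - t (f a.2)) =
        ∏ a ∈ S.offDiag, (a.1 - a.2) := by
    intro f hf
    have hi : Finset.univ.image (t ∘ f) = S := by
      refine Finset.eq_of_subset_of_card_le (fun y hy => ?_) ?_
      · obtain ⟨a, -, rfl⟩ := Finset.mem_image.1 hy
        simp [hS]
      · rw [Finset.card_image_of_injective _ hf]; simp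
    refine Finset.prod_bij (fun a _ => (t (f a.1), t (f a.2))) ?_ ?_ ?_ fun _ _ => rfl
    · intro a ha
      refine Finset.mem_offDiag.2 ⟨by simp [hS], by simp [hS], fun h => ?_⟩
      exact (Finset.mem_offDiag.1 ha).2.2 (hf h)
    · intro a _ b _ h
      exact Prod.ext (hf (congrArg Prod.fst h)) (hf (congrArg Prod.snd h))
    · intro b hb
      obtain ⟨h1, h2, h3⟩ := Finset.mem_offDiag.1 hb
      rw [← hi] at h1 h2
      obtain ⟨a1, -, e1⟩ := Finset.mem_image.1 h1
      obtain ⟨a2, -, e2⟩ := Finset.mem_image.1 h2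
      refine ⟨(a1, a2), Finset.mem_offDiag.2 ⟨by simp, by simp, fun h => h3 ?_⟩, Prod.ext e1 e2⟩
      rw [← e1, ← e2, show a1 = a2 from h]
  rw [← Finset.sum_filter_of_ne (p := fun f => Function.Injective (t ∘ f))
    (fun f _ h => (sd_term t f).1 h), Finset.sum_congr rfl
    (fun f hf => key f (Finset.mem_filter.1 hf).2), Finset.sum_const, nsmul_eq_mul]
  refine mul_ne_zero (Nat.cast_ne_zero.2 (Finset.card_pos.2 ?_).ne') ?_
  · have : ∀ a : Fin S.card, ∃ i, t i = (S.equivFin.symm a : ℂ) := fun a => by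
      obtain ⟨i, -, hi⟩ := Finset.mem_image.1 (S.equivFin.symm a).2
      exact ⟨i, hi⟩
    choose f hf using this
    refine ⟨f, Finset.mem_filter.2 ⟨Finset.mem_univ _, fun a b h => ?_⟩⟩
    exact S.equivFin.symm.injective (Subtype.ext (by rw [← hf, ← hf]; exact h))
  · exact Finset.prod_ne_zero_iff.2 fun a ha => sub_ne_zero.2 (Finset.mem_offDiag.1 ha).2.2

theorem Mon.nd_le {q : ℂ[X]} (h : Mon n q) : nd q ≤ n :=
  (Multiset.toFinset_card_le _).trans (h.2 ▸ card_roots' q)

/-- the number of distinct roots is constant on a punctured neighbourhood -/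
theorem An.nd_const (h : An n p z) : ∃ r, ∀ᶠ w in 𝓝[≠] z, nd (p w) = r := by
  classical
  have hm : ∀ᶠ w in 𝓝[≠] z, Mon n (p w) := h.1.filter_mono nhdsWithin_le_nhds
  have h0 : ∃ r, ∀ᶠ w in 𝓝[≠] z, nd (p w) ≤ r := ⟨n, hm.mono fun w hw => hw.nd_le⟩
  have h1 := Nat.find_spec h0
  refine ⟨Nat.find h0, ?_⟩
  obtain ⟨F, hF, hF'⟩ := h.sym _ (sd_sym n (Nat.find h0))
  rcases hF.eventually_eq_zero_or_eventually_ne_zero with h2 | h2
  · rcases Nat.eq_zero_or_pos (Nat.find h0) with h3 | h3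
    · exact h1.mono fun w hw => by omega
    · refine absurd ?_ (Nat.find_min h0 (Nat.sub_lt h3 one_pos))
      filter_upwards [h1, hm, h2.filter_mono nhdsWithin_le_nhds] with w a b c
      obtain ⟨t, ht⟩ := b.enum
      have d : nd (p w) ≠ Nat.find h0 := fun e => by
        rw [hF' w t ht, ← e, ht, nd_enum] at c
        exact sd_ne t c
      omega
  · filter_upwards [h1, hm, h2] with w a b c
    obtain ⟨t, ht⟩ := b.enum
    refine le_antisymm a (not_lt.1 fun e => c ?_)
    rw [ht, nd_enum] at e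
    rw [hF' w t ht, sd_zero t e]

end Vale.Agent.P275HE
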